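import Vale.Agent.P219.Ten.Poly

/-!
# P219, dimension ten: the closed form certificate

The weight at a centre is `u (r, c) = (wA c / r ^ 5 + wB c / r ^ 3 + 714 / r) / 1680` with `c` the cosine
at the centre. The functions below are multiplied by `1680`. With `s = c + d` and `q = c d` the Lipschitz
bound of the cosine enters through
`sqrt ((1 - c ^ 2) (1 - d ^ 2)) ≤ (4 - 3 s ^ 2 + q (4 + s ^ 2)) / (4 - s ^ 2)`, the tangent in `q` at
`c = d`; so the symmetrised integrand is quadratic and concave in `q`, and the defect of the line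
inequality lies above its secant.
-/

noncomputable section

namespace Vale.Agent.P219.CH.Ten

/-- The numerator of the most singular part of the weight. -/
def wA (c : ℝ) : ℝ := 2050 - 2040 * c ^ 2

/-- The numerator of the middle part of the weight. -/
def wB (c : ℝ) : ℝ := 1413 - 1320 * c ^ 2

/-- The one-sided integrand times `r ^ 6`, with `g` in place of the sine product. -/
def one (r c d g : ℝ) : ℝ :=
  1680 * r ^ 6 + wA c * (3 + 6 * d ^ 2) + wB c * (5 + 4 * d ^ 2) * r ^ 2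
    + 714 * r ^ 4 * (7 + 2 * d ^ 2) - 9 * d * r * (wA c + wB c * r ^ 2 + 714 * r ^ 4)
    - (4080 + 2640 * r ^ 2) * (c * d) * g

/-- The tangent bound of the sine product. -/
def cross (c d : ℝ) : ℝ :=
  if c + d < 2 then
    (4 - 3 * (c + d) ^ 2 + c * d * (4 + (c + d) ^ 2)) / (4 - (c + d) ^ 2)
  else 0

/-- The one-sided integrand. -/
def psi (r c d : ℝ) : ℝ := one r c d (cross c d) / r ^ 6

/-- The symmetrised integrand without the sine product. -/
def symP (r s q : ℝ) : ℝ :=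
  3360 * r ^ 6 + r ^ 4 * (9996 + 1428 * (s ^ 2 - 2 * q))
    + r ^ 2 * (14130 - 948 * (s ^ 2 - 2 * q) - 10560 * q ^ 2)
    + 12300 + 6180 * (s ^ 2 - 2 * q) - 24480 * q ^ 2
    - 9 * r * s * (2050 + 1413 * r ^ 2 + 714 * r ^ 4 - (2040 + 1320 * r ^ 2) * q)

/-- The coefficient of the sine product. -/
def kap (r : ℝ) : ℝ := 8160 + 5280 * r ^ 2

/-- The symmetrised integrand times `4 - s ^ 2`. -/
def symT (r s q : ℝ) : ℝ :=
  (4 - s ^ 2) * symP r s q - kap r * q * (4 - 3 * s ^ 2 + q * (4 + s ^ 2))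

/-- The coefficient of the marginal terms. -/
def aCoef (t : ℝ) : ℝ := -98400 * t ^ 2 - 52320 * t ^ 4 - 60480 * t ^ 6 + 73728 * t ^ 8

/-- The marginal terms, in `s` and `q`. -/
def aSum (s q : ℝ) : ℝ :=
  q * (98400 * s + 52320 * (s ^ 3 - 3 * q * s) + 60480 * (s ^ 5 - 5 * q * s ^ 3 + 5 * q ^ 2 * s)
    - 73728 * (s ^ 7 - 7 * q * s ^ 5 + 14 * q ^ 2 * s ^ 3 - 7 * q ^ 3 * s))

/-- The defect of the line inequality without the sine product. -/
def lineP (r s q : ℝ) : ℝ := r ^ 3 * symP r s q + aSum s q - 147600 * q * r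

/-- The defect of the line inequality times `4 - s ^ 2`. -/
def lineT (r s q : ℝ) : ℝ :=
  (4 - s ^ 2) * lineP r s q - r ^ 3 * kap r * q * (4 - 3 * s ^ 2 + q * (4 + s ^ 2))

theorem one_sym (r c d g : ℝ) :
    one r c d g + one r d c g = symP r (c + d) (c * d) - kap r * (c * d) * g := by
  unfold one symP kap wA wB
  ring

theorem aSum_eq (c d : ℝ) : aSum (c + d) (c * d) = -(aCoef c * d) - aCoef d * c := by
  unfold aSum aCoef
  ring

theorem cross_comm (c d : ℝ) : cross c d = cross d c := by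
  unfold cross
  rw [add_comm c d, mul_comm c d]

theorem aCoef_nonpos {t : ℝ} (h0 : 0 ≤ t) (h1 : t ≤ 1) : aCoef t ≤ 0 := by
  have := pow_le_pow_of_le_one h0 h1 (show 2 ≤ 8 by norm_num)
  have := pow_nonneg h0 4
  have := pow_nonneg h0 6
  have := sq_nonneg t
  unfold aCoef
  linarith

theorem quad_nonneg {a b e x : ℝ} (ha : 0 < a) (h : b ^ 2 ≤ 4 * a * e) :
    0 ≤ a * x ^ 2 + b * x + e := by
  have : 0 ≤ 4 * a * (a * x ^ 2 + b * x + e) := by nlinarith [sq_nonneg (2 * a * x + b)]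
  exact nonneg_of_mul_nonneg_right this (by positivity)

/-- A quartic without a square of the middle power in its Gram matrix. -/
theorem quartic_nonneg {e4 e3 e2 e1 e0 r : ℝ} (h0 : 0 < e0) (h4 : 0 < e4)
    (h : e0 * e3 ^ 2 ≤ e4 * (4 * e0 * e2 - e1 ^ 2)) :
    0 ≤ e4 * r ^ 4 + e3 * r ^ 3 + e2 * r ^ 2 + e1 * r + e0 := by
  have hq : 0 ≤ 4 * e0 * e4 * r ^ 2 + 4 * e0 * e3 * r + (4 * e0 * e2 - e1 ^ 2) := by
    refine quad_nonneg (by positivity) ?_
    linarith [mul_le_mul_of_nonneg_left h (show 0 ≤ 16 * e0 by positivity)]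
  refine nonneg_of_mul_nonneg_right (a := 4 * e0) ?_ (by positivity)
  have e : 4 * e0 * (e4 * r ^ 4 + e3 * r ^ 3 + e2 * r ^ 2 + e1 * r + e0) =
      (2 * e0 + e1 * r) ^ 2 +
        r ^ 2 * (4 * e0 * e4 * r ^ 2 + 4 * e0 * e3 * r + (4 * e0 * e2 - e1 ^ 2)) := by ring
  rw [e]
  positivity

/-- A function above its secant on an interval with nonnegative end values is nonnegative. -/
theorem secant {f : ℝ → ℝ} {q0 q1 q : ℝ} (h0 : q0 ≤ q) (h1 : q ≤ q1) (hf0 : 0 ≤ f q0)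
    (hf1 : 0 ≤ f q1) (h : (q1 - q) * f q0 + (q - q0) * f q1 ≤ (q1 - q0) * f q) : 0 ≤ f q := by
  rcases eq_or_lt_of_le (h0.trans h1) with he | he
  · rwa [show q = q0 by linarith]
  refine nonneg_of_mul_nonneg_right (a := q1 - q0) (le_trans ?_ h) (by linarith)
  exact add_nonneg (mul_nonneg (sub_nonneg.2 h1) hf0) (mul_nonneg (sub_nonneg.2 h0) hf1)

theorem cosines_mem {c d : ℝ} (hc : 0 ≤ c) (hc1 : c ≤ 1) (hd : 0 ≤ d) (hd1 : d ≤ 1) :
    max 0 (c + d - 1) ≤ c * d ∧ c * d ≤ ((c + d) / 2) ^ 2 :=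
  ⟨max_le (mul_nonneg hc hd) (by nlinarith [mul_nonneg (sub_nonneg.2 hc1) (sub_nonneg.2 hd1)]),
    by nlinarith [sq_nonneg (c - d)]⟩

/-! ## The symmetrised integrand on the three edges -/

theorem sym_zero (r : ℝ) {c : ℝ} (hc : 0 ≤ c) (hc1 : c ≤ 1) : 0 ≤ symP r c 0 := by
  have hc2 : c ^ 2 ≤ 1 := pow_le_one₀ hc hc1
  have h1 : 0 ≤ 3360 * r ^ 2 + -6426 * c * r + 3073 * c ^ 2 :=
    quad_nonneg (by norm_num) (by nlinarith [sq_nonneg c])
  have h2 : 0 ≤ (9996 - 1645 * c ^ 2) * r ^ 2 + -12717 * c * r + 4842 * c ^ 2 := by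
    refine quad_nonneg (by linarith) ?_
    nlinarith [mul_le_mul_of_nonneg_left hc2 (sq_nonneg c), sq_nonneg c]
  have h3 : 0 ≤ (14130 - 5790 * c ^ 2) * r ^ 2 + -18450 * c * r + (12300 + 6180 * c ^ 2) := by
    refine quad_nonneg (by linarith) ?_
    nlinarith [mul_le_mul_of_nonneg_left hc2 (sq_nonneg c), sq_nonneg c]
  unfold symP
  linarith [mul_nonneg (show 0 ≤ r ^ 4 by positivity) h1, mul_nonneg (sq_nonneg r) h2]

/-- The symmetrised integrand on the edge `d = 1`. -/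
def edgeS (r c : ℝ) : ℝ := (3 + c) * symP r (1 + c) c - kap r * c * (1 - c ^ 2)

/-- The symmetrised integrand on the diagonal. -/
def diagS (r t : ℝ) : ℝ := symP r (2 * t) (t ^ 2) - kap r * t ^ 2 * (1 - t ^ 2)

theorem edgeS_nonneg (r : ℝ) {c : ℝ} (hc : 0 ≤ c) (hc1 : c ≤ 1) : 0 ≤ edgeS r c := by
  have h2 : c ^ 2 ≤ c := by nlinarith
  have h3 : c ^ 3 ≤ c := by nlinarith [mul_le_mul_of_nonneg_left h2 hc]
  have htop : 0 ≤ (10080 + 3360 * c) * r ^ 2 + (-19278 - 25704 * c - 6426 * c ^ 2) * r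
      + (34272 + 11424 * c + 4284 * c ^ 2 + 1428 * c ^ 3
        - (23000 - 3900 * c - 17000 * c ^ 2)) := by
    refine quad_nonneg (by positivity) ?_
    linarith [edgeTop_disc hc hc1]
  have hlow : 0 ≤ (23000 - 3900 * c - 17000 * c ^ 2) * r ^ 4
      + (-38151 - 15228 * c + 34803 * c ^ 2 + 11880 * c ^ 3) * r ^ 3
      + (39546 + 7902 * c - 34524 * c ^ 2 - 6228 * c ^ 3) * r ^ 2
      + (-55350 - 18720 * c + 54990 * c ^ 2 + 18360 * c ^ 3) * r
      + (55440 + 10320 * c - 54900 * c ^ 2 - 10140 * c ^ 3) := by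
    refine quartic_nonneg (by linarith) (by linarith) ?_
    linarith [edgeMid_disc hc hc1]
  have e : edgeS r c = r ^ 4 * ((10080 + 3360 * c) * r ^ 2
        + (-19278 - 25704 * c - 6426 * c ^ 2) * r
        + (34272 + 11424 * c + 4284 * c ^ 2 + 1428 * c ^ 3
          - (23000 - 3900 * c - 17000 * c ^ 2)))
      + ((23000 - 3900 * c - 17000 * c ^ 2) * r ^ 4
        + (-38151 - 15228 * c + 34803 * c ^ 2 + 11880 * c ^ 3) * r ^ 3
        + (39546 + 7902 * c - 34524 * c ^ 2 - 6228 * c ^ 3) * r ^ 2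
        + (-55350 - 18720 * c + 54990 * c ^ 2 + 18360 * c ^ 3) * r
        + (55440 + 10320 * c - 54900 * c ^ 2 - 10140 * c ^ 3)) := by
    unfold edgeS symP kap
    ring
  rw [e]
  exact add_nonneg (mul_nonneg (by positivity) htop) hlow

theorem diagS_nonneg (r : ℝ) {t : ℝ} (ht : 0 ≤ t) (ht1 : t ≤ 1) : 0 ≤ diagS r t := by
  have hx : t ^ 2 ≤ 1 := pow_le_one₀ ht ht1
  obtain ⟨x, hx0⟩ : ∃ x, x = t ^ 2 := ⟨_, rfl⟩
  rw [← hx0] at hx
  have h0 : 0 ≤ x := hx0 ▸ sq_nonneg t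
  have hxx : x ^ 2 ≤ x := by nlinarith
  have hR : 0 ≤ (198240 - 192549 * x) * r ^ 4 + -(t * (631800 - 596970 * x)) * r ^ 3
      + (489600 - 148440 * x - 274725 * x ^ 2) * r ^ 2 + -(t * (1476000 - 1468800 * x)) * r
      + (492000 + 168000 * x - 652800 * x ^ 2) := by
    refine quartic_nonneg (by linarith) (by linarith) ?_
    rw [neg_sq, neg_sq, mul_pow, mul_pow, ← hx0]
    linarith [diagMid_disc h0 hx]
  have e : 40 * diagS r t =
      21 * (80 * r ^ 3 - 153 * t * r ^ 2 + (60 - 55 * x) * r) ^ 2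
      + ((198240 - 192549 * x) * r ^ 4 + -(t * (631800 - 596970 * x)) * r ^ 3
        + (489600 - 148440 * x - 274725 * x ^ 2) * r ^ 2 + -(t * (1476000 - 1468800 * x)) * r
        + (492000 + 168000 * x - 652800 * x ^ 2)) := by
    rw [hx0]
    unfold diagS symP kap
    ring
  refine nonneg_of_mul_nonneg_right (a := (40 : ℝ)) ?_ (by norm_num)
  rw [e]
  exact add_nonneg (mul_nonneg (by norm_num) (sq_nonneg _)) hR

theorem symT_low (r : ℝ) {s : ℝ} (hs : 0 ≤ s) (hs2 : s ≤ 2) : 0 ≤ symT r s (max 0 (s - 1)) := by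
  rcases le_total s 1 with h | h
  · rw [max_eq_left (by linarith)]
    have e : symT r s 0 = (4 - s ^ 2) * symP r s 0 := by unfold symT; ring
    rw [e]
    exact mul_nonneg (by nlinarith) (sym_zero r hs h)
  · rw [max_eq_right (by linarith)]
    obtain ⟨c, rfl⟩ : ∃ c, s = 1 + c := ⟨s - 1, by ring⟩
    have e : symT r (1 + c) (1 + c - 1) = (1 - c) * edgeS r c := by unfold symT edgeS; ring_nf
    rw [e]
    exact mul_nonneg (by linarith) (edgeS_nonneg r (by linarith) (by linarith))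

theorem symT_high (r : ℝ) {s : ℝ} (hs : 0 ≤ s) (hs2 : s ≤ 2) : 0 ≤ symT r s ((s / 2) ^ 2) := by
  obtain ⟨t, rfl⟩ : ∃ t, s = 2 * t := ⟨s / 2, by ring⟩
  have e : symT r (2 * t) ((2 * t / 2) ^ 2) = (4 - 4 * t ^ 2) * diagS r t := by
    unfold symT diagS; ring_nf
  rw [e]
  exact mul_nonneg (by nlinarith) (diagS_nonneg r (by linarith) (by linarith))

theorem symT_secant (r : ℝ) {s q0 q1 q : ℝ} (hs : s ^ 2 ≤ 4) (h0 : q0 ≤ q) (h1 : q ≤ q1) :
    (q1 - q) * symT r s q0 + (q - q0) * symT r s q1 ≤ (q1 - q0) * symT r s q := by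
  have := mul_nonneg
    (show 0 ≤ (4 - s ^ 2) * (24480 + 10560 * r ^ 2) + kap r * (4 + s ^ 2) by
      have := sub_nonneg.2 hs
      unfold kap
      positivity)
    (mul_nonneg (mul_nonneg (sub_nonneg.2 h0) (sub_nonneg.2 h1))
      (sub_nonneg.2 (h0.trans h1)))
  unfold symT symP kap at *
  linear_combination this

theorem symT_nonneg (r : ℝ) {c d : ℝ} (hc : 0 ≤ c) (hc1 : c ≤ 1) (hd : 0 ≤ d) (hd1 : d ≤ 1) :
    0 ≤ symT r (c + d) (c * d) := by
  obtain ⟨h0, h1⟩ := cosines_mem hc hc1 hd hd1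
  exact secant (f := symT r (c + d)) h0 h1 (symT_low r (by linarith) (by linarith))
    (symT_high r (by linarith) (by linarith)) (symT_secant r (by nlinarith) h0 h1)

/-- The tangent bound. -/
theorem cross_spec {c d : ℝ} (hc : 0 ≤ c) (hc1 : c ≤ 1) (hd : 0 ≤ d) (hd1 : d ≤ 1) :
    0 ≤ cross c d ∧ Real.sqrt ((1 - c ^ 2) * (1 - d ^ 2)) ≤ cross c d := by
  by_cases h : c + d < 2
  · obtain ⟨s, hs⟩ : ∃ s, s = c + d := ⟨_, rfl⟩
    obtain ⟨q, hq⟩ : ∃ q, q = c * d := ⟨_, rfl⟩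
    have hk : 0 < 4 - s ^ 2 := by rw [hs]; nlinarith
    obtain ⟨hm, _⟩ := cosines_mem hc hc1 hd hd1
    have hN : 0 ≤ 4 - 3 * s ^ 2 + q * (4 + s ^ 2) := by
      rw [← hs, ← hq] at hm
      rcases le_total s 1 with h1 | h1
      · have := (le_max_left 0 (s - 1)).trans hm
        nlinarith
      · have := mul_le_mul_of_nonneg_right ((le_max_right 0 (s - 1)).trans hm)
          (show 0 ≤ 4 + s ^ 2 by positivity)
        nlinarith [mul_nonneg (show 0 ≤ s by linarith) (sq_nonneg (2 - s))]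
    have e : cross c d = (4 - 3 * s ^ 2 + q * (4 + s ^ 2)) / (4 - s ^ 2) := by
      rw [cross, if_pos h, hs, hq]
    refine ⟨e ▸ div_nonneg hN hk.le, Real.sqrt_le_iff.2 ⟨e ▸ div_nonneg hN hk.le, ?_⟩⟩
    rw [e, div_pow, le_div_iff₀ (by positivity)]
    have : 0 ≤ s ^ 2 * (4 * q - s ^ 2) ^ 2 := by positivity
    rw [show (1 - c ^ 2) * (1 - d ^ 2) = (1 + q) ^ 2 - s ^ 2 by rw [hs, hq]; ring]
    linarith
  · have h2 : c = 1 ∧ d = 1 := ⟨by linarith, by linarith⟩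
    rw [cross, if_neg h, h2.1, h2.2]
    norm_num

/-- The symmetrised integrand is nonnegative. -/
theorem one_nonneg (r : ℝ) {c d : ℝ} (hc : 0 ≤ c) (hc1 : c ≤ 1) (hd : 0 ≤ d) (hd1 : d ≤ 1) :
    0 ≤ one r c d (cross c d) + one r d c (cross d c) := by
  rw [cross_comm d c, one_sym]
  by_cases h : c + d < 2
  · have hk : 0 < 4 - (c + d) ^ 2 := by nlinarith
    refine nonneg_of_mul_nonneg_right (a := 4 - (c + d) ^ 2) ?_ hk
    refine le_of_le_of_eq (symT_nonneg r hc hc1 hd hd1) ?_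
    rw [symT, cross, if_pos h]
    field_simp
  · obtain ⟨rfl, rfl⟩ : c = 1 ∧ d = 1 := ⟨by linarith, by linarith⟩
    have := diagS_nonneg r zero_le_one le_rfl
    rw [diagS] at this
    rw [cross, if_neg h]
    norm_num at this ⊢
    linarith

/-! ## The line inequality -/

/-- The quotient of the defect on the diagonal by `(r - 2 t) ^ 2`. -/
def diagJ (r t : ℝ) : ℝ :=
  3360 * r ^ 7 + 588 * t * r ^ 6 + (9996 - 8232 * t ^ 2) * r ^ 5
    + t * (14550 - 11520 * t ^ 2) * r ^ 4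
    + (14130 + t ^ 2 * (11040 - 18432 * t ^ 2)) * r ^ 3
    + t * (19620 + t ^ 2 * (22680 - 27648 * t ^ 2)) * r ^ 2
    + (12300 + t ^ 2 * (26160 + t ^ 2 * (30240 - 36864 * t ^ 2))) * r
    + t * (49200 + t ^ 2 * (26160 + t ^ 2 * (30240 - 36864 * t ^ 2)))

theorem line_diag_eq (r t : ℝ) :
    lineP r (2 * t) (t ^ 2) - r ^ 3 * kap r * t ^ 2 * (1 - t ^ 2) =
      (r - 2 * t) ^ 2 * diagJ r t := by
  unfold lineP symP kap aSum diagJ
  ring

theorem diagJ_nonneg {r t : ℝ} (hr : 0 ≤ r) (ht : 0 ≤ t) (ht1 : t ≤ 1) : 0 ≤ diagJ r t := by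
  have hx : t ^ 2 ≤ 1 := pow_le_one₀ ht ht1
  have := sq_nonneg t
  have : 0 ≤ 9996 - 8232 * t ^ 2 := by linarith
  have : 0 ≤ 14550 - 11520 * t ^ 2 := by linarith
  have : 0 ≤ 14130 + t ^ 2 * (11040 - 18432 * t ^ 2) := by nlinarith
  have : 0 ≤ 19620 + t ^ 2 * (22680 - 27648 * t ^ 2) := by nlinarith
  have h : 0 ≤ 12300 + t ^ 2 * (26160 + t ^ 2 * (30240 - 36864 * t ^ 2)) := by
    have : 0 ≤ 26160 + t ^ 2 * (30240 - 36864 * t ^ 2) := by nlinarith
    positivity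
  have : 0 ≤ 49200 + t ^ 2 * (26160 + t ^ 2 * (30240 - 36864 * t ^ 2)) := by linarith
  unfold diagJ
  positivity

/-- The defect on the edge `d = 1`. -/
def edgeF (r c : ℝ) : ℝ :=
  r ^ 3 * edgeS r c + (3 + c) * (aSum (1 + c) c - 147600 * c * r)

/-- The square coefficient on the edge `d = 1`. -/
def edgeSq (v c : ℝ) : ℝ :=
  edge2 c + v * edge3 c + v ^ 2 * (edge4 c + v * edge5 c) + v ^ 4 * (edge6 c + v * edge7 c)
    + v ^ 6 * (edge8 c + v * edge9 c)

theorem edgeF_expand (v c : ℝ) :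
    edgeF (1 + c + v) c =
      (1 - c) * edge0 c + (1 - c) * edge1 c * v + edgeSq v c * v ^ 2 := by
  unfold edgeF edgeS symP kap aSum edgeSq edge0 edge1 edge2 edge3 edge4 edge5 edge6 edge7 edge8 edge9
  ring

theorem pair_nonneg {v a b : ℝ} (hv : -(1 / 2) ≤ v) (hb : 0 ≤ b) (hab : 1 / 2 * b ≤ a) :
    0 ≤ a + v * b := by
  linarith [mul_le_mul_of_nonneg_right hv hb]

theorem edgeSq_ge {v c : ℝ} (hc : 0 ≤ c) (hc1 : c ≤ 1)
    (hv : 899 / 1000 + 77 / 100 * c + 1 / 10 * c ^ 2 - (1 + c) ≤ v) :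
    120000 + 400000 * c + 600000 * c ^ 2 ≤ edgeSq v c := by
  have p := fun k => pow_nonneg hc k
  have hv2 : -(1 / 2) ≤ v := by linarith [sq_nonneg c]
  have h3 : 0 ≤ edge3 c := by
    have := pow_le_pow_of_le_one hc hc1 (show 3 ≤ 6 by norm_num)
    have := pow_le_pow_of_le_one hc hc1 (show 3 ≤ 7 by norm_num)
    unfold edge3
    linarith [p 1, p 2, p 3, p 4, p 5, p 6]
  have h4 : 0 ≤ edge4 c + v * edge5 c := by
    refine pair_nonneg hv2 ?_ ?_ <;> unfold edge5 <;> [skip; unfold edge4] <;>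
      linarith [p 1, p 2, p 3, p 4, p 5, p 6, p 7]
  have h6 : 0 ≤ edge6 c + v * edge7 c := by
    refine pair_nonneg hv2 ?_ ?_ <;> unfold edge7 <;> [skip; unfold edge6] <;>
      linarith [p 1, p 2, p 3, p 4, p 5]
  have h8 : 0 ≤ edge8 c + v * edge9 c := by
    refine pair_nonneg hv2 ?_ ?_ <;> unfold edge9 <;> [skip; unfold edge8] <;>
      linarith [p 1, p 2, p 3]
  have h2 : 120000 + 400000 * c + 600000 * c ^ 2 ≤ edge2 c
      + (899 / 1000 + 77 / 100 * c + 1 / 10 * c ^ 2 - (1 + c)) * edge3 c := by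
    have := edgeLin hc hc1
    unfold edge2 edge3
    linarith
  have := mul_le_mul_of_nonneg_right hv h3
  have := mul_nonneg (show 0 ≤ v ^ 2 by positivity) h4
  have := mul_nonneg (show 0 ≤ v ^ 4 by positivity) h6
  have := mul_nonneg (show 0 ≤ v ^ 6 by positivity) h8
  unfold edgeSq
  linarith

theorem edgeF_nonneg {r c : ℝ} (hr : 0 ≤ r) (hc : 0 ≤ c) (hc1 : c ≤ 1) : 0 ≤ edgeF r c := by
  rcases le_total r (899 / 1000 + 77 / 100 * c + 1 / 10 * c ^ 2) with h | h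
  · obtain ⟨z, hz⟩ : ∃ z, z = 137472 + 98400 * c + 52320 * c ^ 3 + 60480 * c ^ 5 - 73728 * c ^ 7 :=
      ⟨_, rfl⟩
    have e : edgeF r c = r ^ 3 * edgeS r c + (3 + c) * c * (z - 147600 * r) := by
      rw [hz]; unfold edgeF aSum; ring
    rw [e]
    refine add_nonneg (mul_nonneg (pow_nonneg hr 3) (edgeS_nonneg r hc hc1))
      (mul_nonneg (by positivity) ?_)
    have := threshold hc hc1
    linarith
  · obtain ⟨v, rfl⟩ : ∃ v, r = 1 + c + v := ⟨r - 1 - c, by ring⟩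
    rw [edgeF_expand]
    have hC := edgeSq_ge hc hc1 (v := v) (by linarith)
    have h0 : 0 ≤ edge0 c := by
      have := edge0_poly hc hc1
      unfold edge0
      linarith
    have hQ : (1 - c) * edge1 c ^ 2 ≤ 4 * edge0 c * (120000 + 400000 * c + 600000 * c ^ 2) := by
      have := edge_disc hc hc1
      unfold edge0 edge1
      linarith
    have hCpos : 0 < edgeSq v c := lt_of_lt_of_le (by positivity) hC
    have := quad_nonneg (x := v) (b := (1 - c) * edge1 c) (e := (1 - c) * edge0 c) hCpos (by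
      have h1 := mul_le_mul_of_nonneg_left
        (hQ.trans (mul_le_mul_of_nonneg_left hC (by positivity))) (sub_nonneg.2 hc1)
      linarith)
    linarith

theorem lineT_low {r s : ℝ} (hr : 0 ≤ r) (hs : 0 ≤ s) (hs2 : s ≤ 2) :
    0 ≤ lineT r s (max 0 (s - 1)) := by
  rcases le_total s 1 with h | h
  · rw [max_eq_left (by linarith)]
    have e : lineT r s 0 = (4 - s ^ 2) * (r ^ 3 * symP r s 0) := by
      unfold lineT lineP aSum; ring
    rw [e]
    exact mul_nonneg (by nlinarith) (mul_nonneg (pow_nonneg hr 3) (sym_zero r hs h))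
  · rw [max_eq_right (by linarith)]
    obtain ⟨c, rfl⟩ : ∃ c, s = 1 + c := ⟨s - 1, by ring⟩
    have e : lineT r (1 + c) (1 + c - 1) = (1 - c) * edgeF r c := by
      unfold lineT lineP edgeF edgeS; ring_nf
    rw [e]
    exact mul_nonneg (by linarith) (edgeF_nonneg hr (by linarith) (by linarith))

theorem lineT_high {r s : ℝ} (hr : 0 ≤ r) (hs : 0 ≤ s) (hs2 : s ≤ 2) :
    0 ≤ lineT r s ((s / 2) ^ 2) := by
  obtain ⟨t, rfl⟩ : ∃ t, s = 2 * t := ⟨s / 2, by ring⟩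
  have e : lineT r (2 * t) ((2 * t / 2) ^ 2) = (4 - 4 * t ^ 2) *
      (lineP r (2 * t) (t ^ 2) - r ^ 3 * kap r * t ^ 2 * (1 - t ^ 2)) := by
    unfold lineT; ring_nf
  rw [e, line_diag_eq]
  exact mul_nonneg (by nlinarith)
    (mul_nonneg (sq_nonneg _) (diagJ_nonneg hr (by linarith) (by linarith)))

/-- Second differences of the marginal terms in the product are nonpositive. -/
theorem bend {s q0 q1 q : ℝ} (hs : 0 ≤ s) (hs2 : s ≤ 2) (e0 : q0 = max 0 (s - 1))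
    (e1 : q1 = (s / 2) ^ 2) (h0 : q0 ≤ q) (h1 : q ≤ q1) :
    -156960 - 302400 * s ^ 2 + 516096 * s ^ 4 + (302400 - 1032192 * s ^ 2) * (q0 + q + q1)
      + 516096 * (q0 ^ 2 + q ^ 2 + q1 ^ 2 + q0 * q + q0 * q1 + q * q1) ≤ 0 := by
  have hlin : q0 ^ 2 + q ^ 2 + q1 ^ 2 + q0 * q + q0 * q1 + q * q1 ≤
      q0 ^ 2 + q1 ^ 2 + 2 * q * (q0 + q1) := by
    linarith [mul_nonneg (sub_nonneg.2 h0) (sub_nonneg.2 h1)]
  rcases eq_or_lt_of_le (h0.trans h1) with he | he
  · have hq : q = q0 := by linarith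
    have h2 : s = 0 ∨ s = 2 := by
      rcases le_total s 1 with h | h
      · left
        rw [e0, max_eq_left (by linarith), e1] at he
        have := pow_eq_zero_iff (two_ne_zero) |>.1 he.symm
        linarith
      · right
        rw [e0, max_eq_right (by linarith), e1] at he
        nlinarith [sq_nonneg (s - 2)]
    rcases h2 with rfl | rfl <;> · rw [hq, ← he, e0]; norm_num
  obtain ⟨f, hf⟩ : ∃ f : ℝ → ℝ, ∀ x, f x = -156960 - 302400 * s ^ 2 + 516096 * s ^ 4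
      + (302400 - 1032192 * s ^ 2) * (q0 + x + q1)
      + 516096 * (q0 ^ 2 + q1 ^ 2 + 2 * x * (q0 + q1)) := ⟨_, fun _ => rfl⟩
  have hf0 : f q0 ≤ 0 ∧ f q1 ≤ 0 := by
    rw [hf, hf, e0, e1]
    rcases le_total s 1 with h | h
    · rw [max_eq_left (by linarith)]
      have hx : s ^ 2 ≤ 1 := pow_le_one₀ hs h
      have := mul_le_mul_of_nonneg_left hx (sq_nonneg s)
      have := sq_nonneg s
      constructor <;> linarith
    · rw [max_eq_right (by linarith)]
      have u0 : 0 ≤ s - 1 := sub_nonneg.2 h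
      have v0 : 0 ≤ 2 - s := sub_nonneg.2 hs2
      constructor
      · linarith [mul_nonneg (pow_nonneg u0 3) v0, mul_nonneg (pow_nonneg u0 2) (pow_nonneg v0 2),
          mul_nonneg u0 (pow_nonneg v0 3), pow_nonneg u0 4, pow_nonneg v0 4]
      · linarith [mul_nonneg (pow_nonneg u0 3) v0, mul_nonneg (pow_nonneg u0 2) (pow_nonneg v0 2),
          mul_nonneg u0 (pow_nonneg v0 3), pow_nonneg u0 4, pow_nonneg v0 4]
  have : f q ≤ 0 := by
    refine nonpos_of_mul_nonpos_right (a := q1 - q0) ?_ (by linarith) |>.trans_eq rfl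
    have e : (q1 - q0) * f q = (q1 - q) * f q0 + (q - q0) * f q1 := by rw [hf, hf, hf]; ring
    rw [e]
    exact add_nonpos (mul_nonpos_of_nonneg_of_nonpos (sub_nonneg.2 h1) hf0.1)
      (mul_nonpos_of_nonneg_of_nonpos (sub_nonneg.2 h0) hf0.2)
  rw [hf] at this
  linarith

theorem lineT_secant {r s q0 q1 q : ℝ} (hr : 0 ≤ r) (hs : 0 ≤ s) (hs2 : s ≤ 2)
    (e0 : q0 = max 0 (s - 1)) (e1 : q1 = (s / 2) ^ 2) (h0 : q0 ≤ q) (h1 : q ≤ q1) :
    (q1 - q) * lineT r s q0 + (q - q0) * lineT r s q1 ≤ (q1 - q0) * lineT r s q := by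
  obtain ⟨B, hB⟩ : ∃ B, B = -156960 - 302400 * s ^ 2 + 516096 * s ^ 4
      + (302400 - 1032192 * s ^ 2) * (q0 + q + q1)
      + 516096 * (q0 ^ 2 + q ^ 2 + q1 ^ 2 + q0 * q + q0 * q1 + q * q1) := ⟨_, rfl⟩
  have hB0 : 0 ≤ -B := by rw [hB]; linarith [bend hs hs2 e0 e1 h0 h1]
  have hk : 0 ≤ 4 - s ^ 2 := by nlinarith
  have := mul_nonneg
    (show 0 ≤ (4 - s ^ 2) * (r ^ 3 * (24480 + 10560 * r ^ 2) + s * -B)
      + r ^ 3 * kap r * (4 + s ^ 2) by unfold kap; positivity)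
    (mul_nonneg (mul_nonneg (sub_nonneg.2 h0) (sub_nonneg.2 h1))
      (sub_nonneg.2 (h0.trans h1)))
  rw [hB] at this
  unfold lineT lineP aSum symP kap at *
  linear_combination this

theorem lineT_nonneg {r c d : ℝ} (hr : 0 ≤ r) (hc : 0 ≤ c) (hc1 : c ≤ 1) (hd : 0 ≤ d)
    (hd1 : d ≤ 1) : 0 ≤ lineT r (c + d) (c * d) := by
  obtain ⟨h0, h1⟩ := cosines_mem hc hc1 hd hd1
  exact secant (f := lineT r (c + d)) h0 h1 (lineT_low hr (by linarith) (by linarith))
    (lineT_high hr (by linarith) (by linarith))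
    (lineT_secant hr (by linarith) (by linarith) rfl rfl h0 h1)

/-- The line inequality, with equality for `r = 2 c = 2 d`. -/
theorem line_inequality {r c d : ℝ} (hr : 0 ≤ r) (hc : 0 ≤ c) (hc1 : c ≤ 1) (hd : 0 ≤ d)
    (hd1 : d ≤ 1) :
    aCoef c * d + aCoef d * c + 147600 * (c * d) * r ≤
      r ^ 3 * (one r c d (cross c d) + one r d c (cross d c)) := by
  rw [cross_comm d c, one_sym, ← sub_nonneg]
  have e : ∀ g : ℝ, r ^ 3 * (symP r (c + d) (c * d) - kap r * (c * d) * g)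
      - (aCoef c * d + aCoef d * c + 147600 * (c * d) * r) =
      lineP r (c + d) (c * d) - r ^ 3 * kap r * (c * d) * g := fun g => by
    rw [lineP, aSum_eq]; ring
  rw [e]
  by_cases h : c + d < 2
  · have hk : 0 < 4 - (c + d) ^ 2 := by nlinarith
    refine nonneg_of_mul_nonneg_right (a := 4 - (c + d) ^ 2) ?_ hk
    refine le_of_le_of_eq (lineT_nonneg hr hc hc1 hd hd1) ?_
    rw [lineT, cross, if_pos h]
    field_simp
  · obtain ⟨rfl, rfl⟩ : c = 1 ∧ d = 1 := ⟨by linarith, by linarith⟩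
    have hJ := mul_nonneg (sq_nonneg (r - 2 * 1)) (diagJ_nonneg hr zero_le_one le_rfl)
    rw [← line_diag_eq] at hJ
    rw [cross, if_neg h]
    norm_num at hJ ⊢
    linarith

theorem psi_sum {r : ℝ} (hr : r ≠ 0) (c d : ℝ) :
    r ^ 6 * (psi r c d + psi r d c) = one r c d (cross c d) + one r d c (cross d c) := by
  unfold psi
  field_simp

/-- The same after the regularisation of the distance. -/
theorem line_regular {r ρ c d : ℝ} (hr : 0 ≤ r) (hρ : r ≤ ρ) (hρ0 : 0 < ρ) (hc : 0 ≤ c)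
    (hc1 : c ≤ 1) (hd : 0 ≤ d) (hd1 : d ≤ 1) :
    aCoef c * d + aCoef d * c + 147600 * (c * d) * r * (r / ρ) ^ 8 ≤
      r ^ 9 * (psi ρ c d + psi ρ d c) := by
  obtain ⟨k, hk⟩ : ∃ k, k = (r / ρ) ^ 9 := ⟨_, rfl⟩
  have hk0 : 0 ≤ k := by rw [hk]; positivity
  have hk1 : k ≤ 1 := hk ▸ pow_le_one₀ (div_nonneg hr hρ0.le) ((div_le_one hρ0).2 hρ)
  have h1 := mul_le_mul_of_nonneg_left (line_inequality hρ0.le hc hc1 hd hd1) hk0
  have hn : aCoef c * d + aCoef d * c ≤ 0 := add_nonpos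
    (mul_nonpos_of_nonpos_of_nonneg (aCoef_nonpos hc hc1) hd)
    (mul_nonpos_of_nonpos_of_nonneg (aCoef_nonpos hd hd1) hc)
  have e1 : k * ρ = r * (r / ρ) ^ 8 := by rw [hk]; field_simp
  have e2 : k * (ρ ^ 3 * (one ρ c d (cross c d) + one ρ d c (cross d c))) =
      r ^ 9 * (psi ρ c d + psi ρ d c) := by
    rw [hk, ← psi_sum hρ0.ne']
    field_simp
  have h3 : k * (147600 * (c * d) * ρ) = 147600 * (c * d) * r * (r / ρ) ^ 8 := by
    calc k * (147600 * (c * d) * ρ) = 147600 * (c * d) * (k * ρ) := by ring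
      _ = _ := by rw [e1]; ring
  have h4 := mul_le_mul_of_nonpos_right hk1 hn
  linarith

end Vale.Agent.P219.CH.Ten
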