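import Mathlib

/-!
# P219, dimension ten: polynomials in one variable

The nonnegativity of the discriminants of the certificate, each from a Bernstein expansion on a few
intervals, and the coefficients of the line inequality on the edge `d = 1` about `r = 1 + c`.
-/

noncomputable section

namespace Vale.Agent.P219.CH.Ten

/-- The constant coefficient on the edge `d = 1`, divided by `1 - c`. -/
def edge0 (c : ℝ) : ℝ :=
  26559 + 59673 * c - 90807 * c ^ 2 - 211125 * c ^ 3 - 66117 * c ^ 4 + 54969 * c ^ 5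
  + 278607 * c ^ 6 + 329085 * c ^ 7 + 85998 * c ^ 8 + 1638 * c ^ 9

/-- The linear coefficient on the edge `d = 1`, divided by `1 - c`. -/
def edge1 (c : ℝ) : ℝ :=
  90144 - 143412 * c - 100734 * c ^ 2 + 115272 * c ^ 3 + 353940 * c ^ 4
  + 391884 * c ^ 5 + 239598 * c ^ 6 + 82776 * c ^ 7 + 11172 * c ^ 8

/-- The coefficient of `(r - 1 - c) ^ 2` on the edge `d = 1`. -/
def edge2 (c : ℝ) : ℝ :=
  200223 + 709848 * c + 1251279 * c ^ 2 + 1249920 * c ^ 3 + 527085 * c ^ 4
  - 153072 * c ^ 5 - 314487 * c ^ 6 - 171576 * c ^ 7 - 28980 * c ^ 8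

/-- The coefficient of `(r - 1 - c) ^ 3` on the edge `d = 1`. -/
def edge3 (c : ℝ) : ℝ :=
  433152 + 1713576 * c + 2779764 * c ^ 2 + 2284260 * c ^ 3 + 953460 * c ^ 4
  + 84732 * c ^ 5 - 111084 * c ^ 6 - 27636 * c ^ 7

/-- The coefficient of `(r - 1 - c) ^ 4` on the edge `d = 1`. -/
def edge4 (c : ℝ) : ℝ :=
  690255 + 2420610 * c + 3436740 * c ^ 2 + 2648910 * c ^ 3 + 1185405 * c ^ 4
  + 266400 * c ^ 5 + 23520 * c ^ 6

/-- The coefficient of `(r - 1 - c) ^ 5` on the edge `d = 1`. -/
def edge5 (c : ℝ) : ℝ :=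
  720864 + 2192508 * c + 2769498 * c ^ 2 + 1866762 * c ^ 3 + 665748 * c ^ 4
  + 93492 * c ^ 5

/-- The coefficient of `(r - 1 - c) ^ 6` on the edge `d = 1`. -/
def edge6 (c : ℝ) : ℝ :=
  508689 + 1327764 * c + 1372503 * c ^ 2 + 665736 * c ^ 3 + 112308 * c ^ 4

/-- The coefficient of `(r - 1 - c) ^ 7` on the edge `d = 1`. -/
def edge7 (c : ℝ) : ℝ :=
  242928 + 498288 * c + 352044 * c ^ 2 + 70980 * c ^ 3

/-- The coefficient of `(r - 1 - c) ^ 8` on the edge `d = 1`. -/
def edge8 (c : ℝ) : ℝ :=
  71442 + 95256 * c + 23814 * c ^ 2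

/-- The coefficient of `(r - 1 - c) ^ 9` on the edge `d = 1`. -/
def edge9 (c : ℝ) : ℝ :=
  10080 + 3360 * c

/-- The discriminant of the top block on the edge. -/
theorem edgeTop_disc {c : ℝ} (h0 : 0 ≤ c) (h1 : c ≤ 1) :
    0 < 82845756 - 221684064 * c + 155668968 * c ^ 2 + 13286112 * c ^ 3 - 22101156 * c ^ 4 := by
  rcases le_total c (1 / 2) with h | h
  · obtain ⟨u, hu⟩ : ∃ u, u = c - 0 := ⟨_, rfl⟩
    obtain ⟨v, hv⟩ : ∃ v, v = (1 / 2) - c := ⟨_, rfl⟩
    have hu0 : 0 ≤ u := by linarith
    have hv0 : 0 ≤ v := by linarith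
    calc (0 : ℝ) < 1325532096 * v ^ 4
          + 3528655872 * u * v ^ 3
          + 3255450912 * u ^ 2 * v ^ 2
          + 1253634816 * u ^ 3 * v
          + 179206524 * u ^ 4 := by
            rcases hv0.eq_or_lt with h' | h'
            · have : 0 < u := by linarith
              positivity
            · positivity
      _ = 82845756 - 221684064 * c + 155668968 * c ^ 2 + 13286112 * c ^ 3 - 22101156 * c ^ 4 := by rw [hu, hv]; ring
  · obtain ⟨u, hu⟩ : ∃ u, u = c - (1 / 2) := ⟨_, rfl⟩
    obtain ⟨v, hv⟩ : ∃ v, v = 1 - c := ⟨_, rfl⟩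
    have hu0 : 0 ≤ u := by linarith
    have hv0 : 0 ≤ v := by linarith
    calc (0 : ℝ) < 179206524 * v ^ 4
          + 180017376 * u * v ^ 3
          + 34598592 * u ^ 2 * v ^ 2
          + 184138752 * u ^ 3 * v
          + 128249856 * u ^ 4 := by
            rcases hv0.eq_or_lt with h' | h'
            · have : 0 < u := by linarith
              positivity
            · positivity
      _ = 82845756 - 221684064 * c + 155668968 * c ^ 2 + 13286112 * c ^ 3 - 22101156 * c ^ 4 := by rw [hu, hv]; ring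

/-- The discriminant of the lowest block on the edge. -/
theorem edgeLow_disc {c : ℝ} (h0 : 0 ≤ c) (h1 : c ≤ 1) :
    0 ≤ 5706098460 + 1312502400 * c - 10277194680 * c ^ 2 - 2054259360 * c ^ 3
    + 4667371740 * c ^ 4 + 748729440 * c ^ 5 - 84481920 * c ^ 6 := by
  obtain ⟨u, hu⟩ : ∃ u, u = c - 0 := ⟨_, rfl⟩
  obtain ⟨v, hv⟩ : ∃ v, v = 1 - c := ⟨_, rfl⟩
  have hu0 : 0 ≤ u := by linarith
  have hv0 : 0 ≤ v := by linarith
  calc (0 : ℝ) ≤ 5706098460 * v ^ 6
        + 35549093160 * u * v ^ 5
        + 81876794220 * u ^ 2 * v ^ 4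
        + 84083955120 * u ^ 3 * v ^ 3
        + 35557926480 * u ^ 4 * v ^ 2
        + 3611018880 * u ^ 5 * v
        + 18766080 * u ^ 6 := by positivity
    _ = 5706098460 + 1312502400 * c - 10277194680 * c ^ 2 - 2054259360 * c ^ 3
      + 4667371740 * c ^ 4 + 748729440 * c ^ 5 - 84481920 * c ^ 6 := by rw [hu, hv]; ring

/-- The discriminant of the middle block on the edge. -/
theorem edgeMid_disc {c : ℝ} (h0 : 0 ≤ c) (h1 : c ≤ 1) :
    0 ≤ 50547411052560 - 71504201316960 * c - 136215148619340 * c ^ 2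
    + 183099891843900 * c ^ 3 + 141998267595240 * c ^ 4 - 153202770788760 * c ^ 5
    - 73872534909420 * c ^ 6 + 40155676176060 * c ^ 7 + 17569432699200 * c ^ 8
    + 1431102816000 * c ^ 9 := by
  rcases le_total c (1 / 2) with h | h
  · obtain ⟨u, hu⟩ : ∃ u, u = c - 0 := ⟨_, rfl⟩
    obtain ⟨v, hv⟩ : ∃ v, v = (1 / 2) - c := ⟨_, rfl⟩
    have hu0 : 0 ≤ u := by linarith
    have hv0 : 0 ≤ v := by linarith
    calc (0 : ℝ) ≤ 25880274458910720 * v ^ 9
          + 214617394593054720 * u * v ^ 8
          + 767813737200376320 * u ^ 2 * v ^ 7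
          + 1551070559423612160 * u ^ 3 * v ^ 6
          + 1944538335285131520 * u ^ 4 * v ^ 5
          + 1565359803060946560 * u ^ 5 * v ^ 4
          + 808026308234831520 * u ^ 6 * v ^ 3
          + 257897003663808720 * u ^ 7 * v ^ 2
          + 46241640059929920 * u ^ 8 * v
          + 3556965600573840 * u ^ 9 := by positivity
      _ = 50547411052560 - 71504201316960 * c - 136215148619340 * c ^ 2
        + 183099891843900 * c ^ 3 + 141998267595240 * c ^ 4 - 153202770788760 * c ^ 5
        - 73872534909420 * c ^ 6 + 40155676176060 * c ^ 7 + 17569432699200 * c ^ 8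
        + 1431102816000 * c ^ 9 := by rw [hu, hv]; ring
  · rcases le_total c (3 / 4) with h | h
    · obtain ⟨u, hu⟩ : ∃ u, u = c - (1 / 2) := ⟨_, rfl⟩
      obtain ⟨v, hv⟩ : ∃ v, v = (3 / 4) - c := ⟨_, rfl⟩
      have hu0 : 0 ≤ u := by linarith
      have hv0 : 0 ≤ v := by linarith
      calc (0 : ℝ) ≤ 1821166387493806080 * v ^ 9
            + 12747886375824322560 * u * v ^ 8
            + 38470975591861094400 * u ^ 2 * v ^ 7
            + 65415389165073976320 * u ^ 3 * v ^ 6
            + 68750435076364776960 * u ^ 4 * v ^ 5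
            + 46112786876691820800 * u ^ 5 * v ^ 4
            + 19687194662313916800 * u ^ 6 * v ^ 3
            + 5172007883424989760 * u ^ 7 * v ^ 2
            + 769599308999635200 * u ^ 8 * v
            + 51302157120936000 * u ^ 9 := by positivity
        _ = 50547411052560 - 71504201316960 * c - 136215148619340 * c ^ 2
          + 183099891843900 * c ^ 3 + 141998267595240 * c ^ 4 - 153202770788760 * c ^ 5
          - 73872534909420 * c ^ 6 + 40155676176060 * c ^ 7 + 17569432699200 * c ^ 8
          + 1431102816000 * c ^ 9 := by rw [hu, hv]; ring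
    · obtain ⟨u, hu⟩ : ∃ u, u = c - (3 / 4) := ⟨_, rfl⟩
      obtain ⟨v, hv⟩ : ∃ v, v = 1 - c := ⟨_, rfl⟩
      have hu0 : 0 ≤ u := by linarith
      have hv0 : 0 ≤ v := by linarith
      calc (0 : ℝ) ≤ 51302157120936000 * v ^ 9
            + 153839519177212800 * u * v ^ 8
            + 245929564845610560 * u ^ 2 * v ^ 7
            + 1000842682945789440 * u ^ 3 * v ^ 6
            + 2959771460594365440 * u ^ 4 * v ^ 5
            + 4207032742738083840 * u ^ 5 * v ^ 4
            + 2975087324401827840 * u ^ 6 * v ^ 3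
            + 974824693353676800 * u ^ 7 * v ^ 2
            + 106315882073948160 * u ^ 8 * v
            + 1868181924741120 * u ^ 9 := by positivity
        _ = 50547411052560 - 71504201316960 * c - 136215148619340 * c ^ 2
          + 183099891843900 * c ^ 3 + 141998267595240 * c ^ 4 - 153202770788760 * c ^ 5
          - 73872534909420 * c ^ 6 + 40155676176060 * c ^ 7 + 17569432699200 * c ^ 8
          + 1431102816000 * c ^ 9 := by rw [hu, hv]; ring

/-- Below the threshold the marginal terms suffice. -/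
theorem threshold {c : ℝ} (h0 : 0 ≤ c) (h1 : c ≤ 1) :
    0 ≤ (23898 / 5) - 15252 * c - 14760 * c ^ 2 + 52320 * c ^ 3 + 60480 * c ^ 5
    - 73728 * c ^ 7 := by
  rcases le_total c (1 / 4) with h | h
  · obtain ⟨u, hu⟩ : ∃ u, u = c - 0 := ⟨_, rfl⟩
    obtain ⟨v, hv⟩ : ∃ v, v = (1 / 4) - c := ⟨_, rfl⟩
    have hu0 : 0 ≤ u := by linarith
    have hv0 : 0 ≤ v := by linarith
    calc (0 : ℝ) ≤ (391544832 / 5) * v ^ 7
          + (2428452864 / 5) * u * v ^ 6
          + (6272704512 / 5) * u ^ 2 * v ^ 5
          + 1741553664 * u ^ 3 * v ^ 4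
          + 1393803264 * u ^ 4 * v ^ 3
          + (3187971072 / 5) * u ^ 5 * v ^ 2
          + (766347264 / 5) * u ^ 6 * v
          + (75052032 / 5) * u ^ 7 := by positivity
      _ = (23898 / 5) - 15252 * c - 14760 * c ^ 2 + 52320 * c ^ 3 + 60480 * c ^ 5
        - 73728 * c ^ 7 := by rw [hu, hv]; ring
  · rcases le_total c (3 / 8) with h | h
    · obtain ⟨u, hu⟩ : ∃ u, u = c - (1 / 4) := ⟨_, rfl⟩
      obtain ⟨v, hv⟩ : ∃ v, v = (3 / 8) - c := ⟨_, rfl⟩
      have hu0 : 0 ≤ u := by linarith
      have hv0 : 0 ≤ v := by linarith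
      calc (0 : ℝ) ≤ (9606660096 / 5) * v ^ 7
            + (51823706112 / 5) * u * v ^ 6
            + (114513739776 / 5) * u ^ 2 * v ^ 5
            + 26617085952 * u ^ 3 * v ^ 4
            + 17507131392 * u ^ 4 * v ^ 3
            + (33604448256 / 5) * u ^ 5 * v ^ 2
            + (8065400832 / 5) * u ^ 6 * v
            + (1207504896 / 5) * u ^ 7 := by positivity
        _ = (23898 / 5) - 15252 * c - 14760 * c ^ 2 + 52320 * c ^ 3 + 60480 * c ^ 5
          - 73728 * c ^ 7 := by rw [hu, hv]; ring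
    · rcases le_total c (1 / 2) with h | h
      · obtain ⟨u, hu⟩ : ∃ u, u = c - (3 / 8) := ⟨_, rfl⟩
        obtain ⟨v, hv⟩ : ∃ v, v = (1 / 2) - c := ⟨_, rfl⟩
        have hu0 : 0 ≤ u := by linarith
        have hv0 : 0 ≤ v := by linarith
        calc (0 : ℝ) ≤ (1207504896 / 5) * v ^ 7
              + (8839667712 / 5) * u * v ^ 6
              + (38250049536 / 5) * u ^ 2 * v ^ 5
              + 20537229312 * u ^ 3 * v ^ 4
              + 32543342592 * u ^ 4 * v ^ 3
              + (147246022656 / 5) * u ^ 5 * v ^ 2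
              + (70413975552 / 5) * u ^ 6 * v
              + (13816037376 / 5) * u ^ 7 := by positivity
          _ = (23898 / 5) - 15252 * c - 14760 * c ^ 2 + 52320 * c ^ 3 + 60480 * c ^ 5
            - 73728 * c ^ 7 := by rw [hu, hv]; ring
      · obtain ⟨u, hu⟩ : ∃ u, u = c - (1 / 2) := ⟨_, rfl⟩
        obtain ⟨v, hv⟩ : ∃ v, v = 1 - c := ⟨_, rfl⟩
        have hu0 : 0 ≤ u := by linarith
        have hv0 : 0 ≤ v := by linarith
        calc (0 : ℝ) ≤ (843264 / 5) * v ^ 7
              + (12323328 / 5) * u * v ^ 6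
              + (70781184 / 5) * u ^ 2 * v ^ 5
              + 40389888 * u ^ 3 * v ^ 4
              + 62016768 * u ^ 4 * v ^ 3
              + (252693504 / 5) * u ^ 5 * v ^ 2
              + (94483968 / 5) * u ^ 6 * v
              + (8857344 / 5) * u ^ 7 := by positivity
          _ = (23898 / 5) - 15252 * c - 14760 * c ^ 2 + 52320 * c ^ 3 + 60480 * c ^ 5
            - 73728 * c ^ 7 := by rw [hu, hv]; ring

/-- The square coefficient dominates a quadratic. -/
theorem edgeLin {c : ℝ} (h0 : 0 ≤ c) (h1 : c ≤ 1) :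
    0 ≤ (4559331 / 125) + (4643983 / 125) * c + (4928889 / 250) * c ^ 2
    + (27561081 / 50) * c ^ 3 + (9169107 / 50) * c ^ 4 - (38124933 / 250) * c ^ 5
    - (56852469 / 250) * c ^ 6 - (33690561 / 250) * c ^ 7 - (843303 / 25) * c ^ 8
    - (13818 / 5) * c ^ 9 := by
  obtain ⟨u, hu⟩ : ∃ u, u = c - 0 := ⟨_, rfl⟩
  obtain ⟨v, hv⟩ : ∃ v, v = 1 - c := ⟨_, rfl⟩
  have hu0 : 0 ≤ u := by linarith
  have hv0 : 0 ≤ v := by linarith
  calc (0 : ℝ) ≤ (4559331 / 125) * v ^ 9
        + (45677962 / 125) * u * v ^ 8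
        + (407504449 / 250) * u ^ 2 * v ^ 7
        + (599169142 / 125) * u ^ 3 * v ^ 6
        + (1322631071 / 125) * u ^ 4 * v ^ 5
        + (2114901982 / 125) * u ^ 5 * v ^ 4
        + (2231908034 / 125) * u ^ 6 * v ^ 3
        + (1392190204 / 125) * u ^ 7 * v ^ 2
        + (848062723 / 250) * u ^ 8 * v
        + (34597282 / 125) * u ^ 9 := by positivity
    _ = (4559331 / 125) + (4643983 / 125) * c + (4928889 / 250) * c ^ 2
      + (27561081 / 50) * c ^ 3 + (9169107 / 50) * c ^ 4 - (38124933 / 250) * c ^ 5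
      - (56852469 / 250) * c ^ 6 - (33690561 / 250) * c ^ 7 - (843303 / 25) * c ^ 8
      - (13818 / 5) * c ^ 9 := by rw [hu, hv]; ring

/-- The constant coefficient is nonnegative. -/
theorem edge0_poly {c : ℝ} (h0 : 0 ≤ c) (h1 : c ≤ 1) :
    0 ≤ 26559 + 59673 * c - 90807 * c ^ 2 - 211125 * c ^ 3 - 66117 * c ^ 4 + 54969 * c ^ 5
    + 278607 * c ^ 6 + 329085 * c ^ 7 + 85998 * c ^ 8 + 1638 * c ^ 9 := by
  rcases le_total c (1 / 2) with h | h
  · obtain ⟨u, hu⟩ : ∃ u, u = c - 0 := ⟨_, rfl⟩
    obtain ⟨v, hv⟩ : ∃ v, v = (1 / 2) - c := ⟨_, rfl⟩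
    have hu0 : 0 ≤ u := by linarith
    have hv0 : 0 ≤ v := by linarith
    calc (0 : ℝ) ≤ 13598208 * v ^ 9
          + 137660160 * u * v ^ 8
          + 600122496 * u ^ 2 * v ^ 7
          + 1475110464 * u ^ 3 * v ^ 6
          + 2241569376 * u ^ 4 * v ^ 5
          + 2163519792 * u ^ 5 * v ^ 4
          + 1305255672 * u ^ 6 * v ^ 3
          + 462624828 * u ^ 7 * v ^ 2
          + 84589644 * u ^ 8 * v
          + 6221790 * u ^ 9 := by positivity
      _ = 26559 + 59673 * c - 90807 * c ^ 2 - 211125 * c ^ 3 - 66117 * c ^ 4 + 54969 * c ^ 5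
        + 278607 * c ^ 6 + 329085 * c ^ 7 + 85998 * c ^ 8 + 1638 * c ^ 9 := by rw [hu, hv]; ring
  · rcases le_total c (3 / 4) with h | h
    · obtain ⟨u, hu⟩ : ∃ u, u = c - (1 / 2) := ⟨_, rfl⟩
      obtain ⟨v, hv⟩ : ∃ v, v = (3 / 4) - c := ⟨_, rfl⟩
      have hu0 : 0 ≤ u := by linarith
      have hv0 : 0 ≤ v := by linarith
      calc (0 : ℝ) ≤ 3185556480 * v ^ 9
            + 21350063616 * u * v ^ 8
            + 57386666496 * u ^ 2 * v ^ 7
            + 77074889472 * u ^ 3 * v ^ 6
            + 54561830400 * u ^ 4 * v ^ 5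
            + 32922543744 * u ^ 5 * v ^ 4
            + 47184324960 * u ^ 6 * v ^ 3
            + 55521927888 * u ^ 7 * v ^ 2
            + 31245449316 * u ^ 8 * v
            + 6694404570 * u ^ 9 := by positivity
        _ = 26559 + 59673 * c - 90807 * c ^ 2 - 211125 * c ^ 3 - 66117 * c ^ 4 + 54969 * c ^ 5
          + 278607 * c ^ 6 + 329085 * c ^ 7 + 85998 * c ^ 8 + 1638 * c ^ 9 := by rw [hu, hv]; ring
    · obtain ⟨u, hu⟩ : ∃ u, u = c - (3 / 4) := ⟨_, rfl⟩
      obtain ⟨v, hv⟩ : ∃ v, v = 1 - c := ⟨_, rfl⟩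
      have hu0 : 0 ≤ u := by linarith
      have hv0 : 0 ≤ v := by linarith
      calc (0 : ℝ) ≤ 6694404570 * v ^ 9
            + 89253832944 * u * v ^ 8
            + 519588996912 * u ^ 2 * v ^ 7
            + 1729272213120 * u ^ 3 * v ^ 6
            + 3628510906368 * u ^ 4 * v ^ 5
            + 4986679910400 * u ^ 5 * v ^ 4
            + 4497543413760 * u ^ 6 * v ^ 3
            + 2571850874880 * u ^ 7 * v ^ 2
            + 847528329216 * u ^ 8 * v
            + 122809221120 * u ^ 9 := by positivity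
        _ = 26559 + 59673 * c - 90807 * c ^ 2 - 211125 * c ^ 3 - 66117 * c ^ 4 + 54969 * c ^ 5
          + 278607 * c ^ 6 + 329085 * c ^ 7 + 85998 * c ^ 8 + 1638 * c ^ 9 := by rw [hu, hv]; ring

/-- The discriminant of the line inequality on the edge. -/
theorem edge_disc {c : ℝ} (h0 : 0 ≤ c) (h1 : c ≤ 1) :
    0 < 4622379264 + 105118843392 * c + 87369706992 * c ^ 2 - 150685216800 * c ^ 3
    - 578693570196 * c ^ 4 - 491116259388 * c ^ 5 + 136135878864 * c ^ 6
    + 659584837488 * c ^ 7 + 1039698827640 * c ^ 8 + 761044158408 * c ^ 9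
    + 181767202992 * c ^ 10 + 94983253632 * c ^ 11 + 118767540780 * c ^ 12
    + 81770632740 * c ^ 13 + 36216740304 * c ^ 14 + 10355896944 * c ^ 15
    + 1724733360 * c ^ 16 + 124813584 * c ^ 17 := by
  rcases le_total c (1 / 2) with h | h
  · obtain ⟨u, hu⟩ : ∃ u, u = c - 0 := ⟨_, rfl⟩
    obtain ⟨v, hv⟩ : ∃ v, v = (1 / 2) - c := ⟨_, rfl⟩
    have hu0 : 0 ≤ u := by linarith
    have hv0 : 0 ≤ v := by linarith
    calc (0 : ℝ) < 605864494891008 * v ^ 17
          + 17188764933685248 * u * v ^ 16
          + 195485598192500736 * u ^ 2 * v ^ 15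
          + 1279151210779115520 * u ^ 3 * v ^ 14
          + 5561139347991134208 * u ^ 4 * v ^ 13
          + 17301524223453020160 * u ^ 5 * v ^ 12
          + 40205245776808280064 * u ^ 6 * v ^ 11
          + 71591746227203653632 * u ^ 7 * v ^ 10
          + 99116382216266280960 * u ^ 8 * v ^ 9
          + 107384357551577217024 * u ^ 9 * v ^ 8
          + 91009377802846427136 * u ^ 10 * v ^ 7
          + 59908207659514472448 * u ^ 11 * v ^ 6
          + 30178432360404655488 * u ^ 12 * v ^ 5
          + 11346828656190928320 * u ^ 13 * v ^ 4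
          + 3059121900692477568 * u ^ 14 * v ^ 3
          + 553466023160066496 * u ^ 15 * v ^ 2
          + 59532379058531040 * u ^ 16 * v
          + 2852930067832944 * u ^ 17 := by
            rcases hv0.eq_or_lt with h' | h'
            · have : 0 < u := by linarith
              positivity
            · positivity
      _ = 4622379264 + 105118843392 * c + 87369706992 * c ^ 2 - 150685216800 * c ^ 3
        - 578693570196 * c ^ 4 - 491116259388 * c ^ 5 + 136135878864 * c ^ 6
        + 659584837488 * c ^ 7 + 1039698827640 * c ^ 8 + 761044158408 * c ^ 9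
        + 181767202992 * c ^ 10 + 94983253632 * c ^ 11 + 118767540780 * c ^ 12
        + 81770632740 * c ^ 13 + 36216740304 * c ^ 14 + 10355896944 * c ^ 15
        + 1724733360 * c ^ 16 + 124813584 * c ^ 17 := by rw [hu, hv]; ring
  · rcases le_total c (3 / 4) with h | h
    · obtain ⟨u, hu⟩ : ∃ u, u = c - (1 / 2) := ⟨_, rfl⟩
      obtain ⟨v, hv⟩ : ∃ v, v = (3 / 4) - c := ⟨_, rfl⟩
      have hu0 : 0 ≤ u := by linarith
      have hv0 : 0 ≤ v := by linarith
      calc (0 : ℝ) < 373939249850999635968 * v ^ 17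
            + 5633936877220600479744 * u * v ^ 16
            + 38925049245797581848576 * u ^ 2 * v ^ 15
            + 162720576367982074134528 * u ^ 3 * v ^ 14
            + 456682601064163972743168 * u ^ 4 * v ^ 13
            + 900706788949958545637376 * u ^ 5 * v ^ 12
            + 1266104395595132806496256 * u ^ 6 * v ^ 11
            + 1256178007340583860895744 * u ^ 7 * v ^ 10
            + 861973900282012245245952 * u ^ 8 * v ^ 9
            + 452124563463513712238592 * u ^ 9 * v ^ 8
            + 359473545233943134035968 * u ^ 10 * v ^ 7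
            + 501040629931443066310656 * u ^ 11 * v ^ 6
            + 563231019292888352323584 * u ^ 12 * v ^ 5
            + 422985533745978985300992 * u ^ 13 * v ^ 4
            + 210562012540468344832512 * u ^ 14 * v ^ 3
            + 67657935939283430674176 * u ^ 15 * v ^ 2
            + 12814969575299662844640 * u ^ 16 * v
            + 1093459463592949148400 * u ^ 17 := by
            rcases hv0.eq_or_lt with h' | h'
            · have : 0 < u := by linarith
              positivity
            · positivity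
        _ = 4622379264 + 105118843392 * c + 87369706992 * c ^ 2 - 150685216800 * c ^ 3
          - 578693570196 * c ^ 4 - 491116259388 * c ^ 5 + 136135878864 * c ^ 6
          + 659584837488 * c ^ 7 + 1039698827640 * c ^ 8 + 761044158408 * c ^ 9
          + 181767202992 * c ^ 10 + 94983253632 * c ^ 11 + 118767540780 * c ^ 12
          + 81770632740 * c ^ 13 + 36216740304 * c ^ 14 + 10355896944 * c ^ 15
          + 1724733360 * c ^ 16 + 124813584 * c ^ 17 := by rw [hu, hv]; ring
    · obtain ⟨u, hu⟩ : ∃ u, u = c - (3 / 4) := ⟨_, rfl⟩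
      obtain ⟨v, hv⟩ : ∃ v, v = 1 - c := ⟨_, rfl⟩
      have hu0 : 0 ≤ u := by linarith
      have hv0 : 0 ≤ v := by linarith
      calc (0 : ℝ) < 1093459463592949148400 * v ^ 17
            + 24362652186860608200960 * u * v ^ 16
            + 252420857724258556375296 * u ^ 2 * v ^ 15
            + 1616410151439839777261568 * u ^ 3 * v ^ 14
            + 7171454953388920240229376 * u ^ 4 * v ^ 13
            + 23415262222459011934126080 * u ^ 5 * v ^ 12
            + 58312412305953872302080000 * u ^ 6 * v ^ 11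
            + 113228219566320341950660608 * u ^ 7 * v ^ 10
            + 173680411863936403099090944 * u ^ 8 * v ^ 9
            + 211792786455790002747998208 * u ^ 9 * v ^ 8
            + 205443293970214420563886080 * u ^ 10 * v ^ 7
            + 157705660300849110570762240 * u ^ 11 * v ^ 6
            + 94673960671060850896797696 * u ^ 12 * v ^ 5
            + 43532790090133491142361088 * u ^ 13 * v ^ 4
            + 14812143059771069369942016 * u ^ 14 * v ^ 3
            + 3515405080213704451031040 * u ^ 15 * v ^ 2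
            + 519762322395610113638400 * u ^ 16 * v
            + 36056944516635033600000 * u ^ 17 := by
            rcases hv0.eq_or_lt with h' | h'
            · have : 0 < u := by linarith
              positivity
            · positivity
        _ = 4622379264 + 105118843392 * c + 87369706992 * c ^ 2 - 150685216800 * c ^ 3
          - 578693570196 * c ^ 4 - 491116259388 * c ^ 5 + 136135878864 * c ^ 6
          + 659584837488 * c ^ 7 + 1039698827640 * c ^ 8 + 761044158408 * c ^ 9
          + 181767202992 * c ^ 10 + 94983253632 * c ^ 11 + 118767540780 * c ^ 12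
          + 81770632740 * c ^ 13 + 36216740304 * c ^ 14 + 10355896944 * c ^ 15
          + 1724733360 * c ^ 16 + 124813584 * c ^ 17 := by rw [hu, hv]; ring

/-- The discriminant of the lowest block on the diagonal. -/
theorem diagLow_disc {x : ℝ} (h0 : 0 ≤ x) (h1 : x ≤ 1) :
    0 ≤ 963532800000 - 2141694720000 * x + 2417043600000 * x ^ 2 - 1954382112000 * x ^ 3
    + 717361920000 * x ^ 4 := by
  obtain ⟨u, hu⟩ : ∃ u, u = x - 0 := ⟨_, rfl⟩
  obtain ⟨v, hv⟩ : ∃ v, v = 1 - x := ⟨_, rfl⟩
  have hu0 : 0 ≤ u := by linarith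
  have hv0 : 0 ≤ v := by linarith
  calc (0 : ℝ) ≤ 963532800000 * v ^ 4
        + 1712436480000 * u * v ^ 3
        + 1773156240000 * u ^ 2 * v ^ 2
        + 308752128000 * u ^ 3 * v
        + 1861488000 * u ^ 4 := by positivity
    _ = 963532800000 - 2141694720000 * x + 2417043600000 * x ^ 2 - 1954382112000 * x ^ 3
      + 717361920000 * x ^ 4 := by rw [hu, hv]; ring

/-- The discriminant of the middle block on the diagonal. -/
theorem diagMid_disc {x : ℝ} (h0 : 0 ≤ x) (h1 : x ≤ 1) :
    0 < 191010742272000000 - 806489088480000000 * x + 1195606127249280000 * x ^ 2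
    - 640865000494080000 * x ^ 3 - 33774013504512000 * x ^ 4 + 94513092157440000 * x ^ 5 := by
  rcases le_total x (3 / 4) with h | h
  · obtain ⟨u, hu⟩ : ∃ u, u = x - 0 := ⟨_, rfl⟩
    obtain ⟨v, hv⟩ : ∃ v, v = (3 / 4) - x := ⟨_, rfl⟩
    have hu0 : 0 ≤ u := by linarith
    have hv0 : 0 ≤ v := by linarith
    calc (0 : ℝ) < (2414753087488000000 / 3) * v ^ 5
          + (4427054080000000000 / 3) * u * v ^ 4
          + 687591153704960000 * u ^ 2 * v ^ 3
          + (355580108922880000 / 3) * u ^ 3 * v ^ 2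
          + (22194663043072000 / 3) * u ^ 4 * v
          + 208766398464000 * u ^ 5 := by
            rcases hv0.eq_or_lt with h' | h'
            · have : 0 < u := by linarith
              positivity
            · positivity
      _ = 191010742272000000 - 806489088480000000 * x + 1195606127249280000 * x ^ 2
        - 640865000494080000 * x ^ 3 - 33774013504512000 * x ^ 4 + 94513092157440000 * x ^ 5 := by rw [hu, hv]; ring
  · rcases le_total x (4 / 5) with h | h
    · obtain ⟨u, hu⟩ : ∃ u, u = x - (3 / 4) := ⟨_, rfl⟩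
      obtain ⟨v, hv⟩ : ∃ v, v = (4 / 5) - x := ⟨_, rfl⟩
      have hu0 : 0 ≤ u := by linarith
      have hv0 : 0 ≤ v := by linarith
      calc (0 : ℝ) < 158531983833600000000 * v ^ 5
            + 470968974927360000000 * u * v ^ 4
            + 605753566166016000000 * u ^ 2 * v ^ 3
            + 492546328221081600000 * u ^ 3 * v ^ 2
            + 265460940127272960000 * u ^ 4 * v
            + 66325700070604800000 * u ^ 5 := by
            rcases hv0.eq_or_lt with h' | h'
            · have : 0 < u := by linarith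
              positivity
            · positivity
        _ = 191010742272000000 - 806489088480000000 * x + 1195606127249280000 * x ^ 2
          - 640865000494080000 * x ^ 3 - 33774013504512000 * x ^ 4 + 94513092157440000 * x ^ 5 := by rw [hu, hv]; ring
    · obtain ⟨u, hu⟩ : ∃ u, u = x - (4 / 5) := ⟨_, rfl⟩
      obtain ⟨v, hv⟩ : ∃ v, v = 1 - x := ⟨_, rfl⟩
      have hu0 : 0 ≤ u := by linarith
      have hv0 : 0 ≤ v := by linarith
      calc (0 : ℝ) < 64771191475200000 * v ^ 5
            + 582322989507840000 * u * v ^ 4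
            + 3149698299811200000 * u ^ 2 * v ^ 3
            + 3001417529616000000 * u ^ 3 * v ^ 2
            + 280567936080000000 * u ^ 4 * v
            + 5810000400000000 * u ^ 5 := by
            rcases hv0.eq_or_lt with h' | h'
            · have : 0 < u := by linarith
              positivity
            · positivity
        _ = 191010742272000000 - 806489088480000000 * x + 1195606127249280000 * x ^ 2
          - 640865000494080000 * x ^ 3 - 33774013504512000 * x ^ 4 + 94513092157440000 * x ^ 5 := by rw [hu, hv]; ring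

end Vale.Agent.P219.CH.Ten
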