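import Vale.Agent.P219.Ten.Cert
import Vale.Agent.P219.Gen.Defs

/-!
# P219, dimension ten: the regularised weight

`rho2 η p` is `2 p + η ^ 2` for `p ≥ 0`, positive and smooth everywhere.
-/

noncomputable section

open Set Filter Topology

namespace Vale.Agent.P219.CH.Ten

/-- The regularised squared distance as a function of the half squared distance. -/
def rho2 (η p : ℝ) : ℝ := η ^ 2 + 2 * p * Real.smoothTransition (4 * p / η ^ 2 + 2)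

theorem rho2_of_gt {η p : ℝ} (hη : η ≠ 0) (hp : -(η ^ 2 / 4) ≤ p) : rho2 η p = η ^ 2 + 2 * p := by
  have h2 : 0 < η ^ 2 := by positivity
  rw [rho2, Real.smoothTransition.one_of_one_le, mul_one]
  have : -1 ≤ 4 * p / η ^ 2 := by rw [le_div_iff₀ h2]; linarith
  linarith

theorem rho2_pos {η : ℝ} (hη : η ≠ 0) (p : ℝ) : 0 < rho2 η p := by
  have h2 : 0 < η ^ 2 := by positivity
  unfold rho2
  rcases le_or_gt (4 * p / η ^ 2 + 2) 0 with h | h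
  · rw [Real.smoothTransition.zero_of_nonpos h, mul_zero, add_zero]; exact h2
  · have hp : -(η ^ 2) < 2 * p := by
      have : -2 < 4 * p / η ^ 2 := by linarith
      rw [lt_div_iff₀ h2] at this
      linarith
    have h0 := Real.smoothTransition.nonneg (4 * p / η ^ 2 + 2)
    have h1 := Real.smoothTransition.le_one (4 * p / η ^ 2 + 2)
    rcases le_total 0 p with hp0 | hp0
    · positivity
    · nlinarith [mul_le_mul_of_nonpos_left h1 (show 2 * p ≤ 0 by linarith)]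

theorem contDiff_rho2 (η : ℝ) : ContDiff ℝ 1 (rho2 η) := by
  unfold rho2
  exact contDiff_const.add ((contDiff_const.mul contDiff_id).mul
    (Real.smoothTransition.contDiff.comp (((contDiff_const.mul contDiff_id).div_const _).add
      contDiff_const)))

/-- The weight. -/
def weight (η : ℝ) (z : ℝ × ℝ) : ℝ :=
  (2050 / rho2 η z.1 ^ 3 + 1413 / rho2 η z.1 ^ 2 + 714 / rho2 η z.1
    - 2040 * z.2 ^ 2 / rho2 η z.1 ^ 4 - 1320 * z.2 ^ 2 / rho2 η z.1 ^ 3) / 1680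

theorem contDiff_weight {η : ℝ} (hη : η ≠ 0) : ContDiff ℝ 1 (weight η) := by
  have hρ : ContDiff ℝ 1 fun z : ℝ × ℝ => rho2 η z.1 := (contDiff_rho2 η).comp contDiff_fst
  have h : ∀ k : ℕ, ∀ z : ℝ × ℝ, rho2 η z.1 ^ k ≠ 0 := fun k z =>
    (pow_pos (rho2_pos hη _) k).ne'
  unfold weight
  exact (((((contDiff_const.div (hρ.pow 3) (h 3)).add (contDiff_const.div (hρ.pow 2) (h 2))).add
    (contDiff_const.div hρ fun z => (rho2_pos hη _).ne')).sub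
    ((contDiff_const.mul (contDiff_snd.pow 2)).div (hρ.pow 4) (h 4))).sub
    ((contDiff_const.mul (contDiff_snd.pow 2)).div (hρ.pow 3) (h 3))).div_const _

theorem weight_pos {η : ℝ} (hη : η ≠ 0) {p q : ℝ} (hp : 0 ≤ p) (hq : q ^ 2 ≤ 2 * p) :
    0 < weight η (p, q) := by
  have h2 : 0 < η ^ 2 := by positivity
  obtain ⟨R, hR⟩ : ∃ R, R = η ^ 2 + 2 * p := ⟨_, rfl⟩
  have hR0 : 0 < R := by rw [hR]; positivity
  simp only [weight, rho2_of_gt hη (by linarith : -(η ^ 2 / 4) ≤ p), ← hR]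
  refine div_pos ?_ (by norm_num)
  have e : 2050 / R ^ 3 + 1413 / R ^ 2 + 714 / R - 2040 * q ^ 2 / R ^ 4 - 1320 * q ^ 2 / R ^ 3 =
      ((2050 * R - 2040 * q ^ 2) + (1413 * R - 1320 * q ^ 2) * R + 714 * R ^ 3) / R ^ 4 := by
    field_simp
    ring
  rw [e]
  have : 0 < 2050 * R - 2040 * q ^ 2 := by linarith
  have : 0 ≤ 1413 * R - 1320 * q ^ 2 := by linarith
  positivity

/-- The two partial derivatives of the weight for `p ≥ 0`. -/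
theorem fderiv_weight {η : ℝ} (hη : η ≠ 0) {p : ℝ} (hp : 0 ≤ p) (q : ℝ) :
    Dir.wa (weight η) (p, q) =
      (-12300 / (η ^ 2 + 2 * p) ^ 4 - 5652 / (η ^ 2 + 2 * p) ^ 3 - 1428 / (η ^ 2 + 2 * p) ^ 2
        + 16320 * q ^ 2 / (η ^ 2 + 2 * p) ^ 5 + 7920 * q ^ 2 / (η ^ 2 + 2 * p) ^ 4) / 1680 ∧
    Dir.wb (weight η) (p, q) =
      (-4080 * q / (η ^ 2 + 2 * p) ^ 4 - 2640 * q / (η ^ 2 + 2 * p) ^ 3) / 1680 := by
  have h2 : 0 < η ^ 2 := by positivity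
  have hd : HasFDerivAt (weight η) (fderiv ℝ (weight η) (p, q)) (p, q) :=
    ((contDiff_weight hη).differentiable one_ne_zero _).hasFDerivAt
  have hR : η ^ 2 + 2 * p ≠ 0 := by positivity
  constructor
  · have h1 : HasDerivAt (fun t => weight η (t, q)) (Dir.wa (weight η) (p, q)) p :=
      hd.comp_hasDerivAt_of_eq p ((hasDerivAt_id p).prodMk (hasDerivAt_const p q)) rfl
    refine h1.unique ?_
    have hl : HasDerivAt (fun t : ℝ => η ^ 2 + 2 * t) 2 p := by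
      simpa using ((hasDerivAt_id p).const_mul (2 : ℝ)).const_add (η ^ 2)
    have hf : HasDerivAt (fun t : ℝ => (2050 / (η ^ 2 + 2 * t) ^ 3 + 1413 / (η ^ 2 + 2 * t) ^ 2
        + 714 / (η ^ 2 + 2 * t) - 2040 * q ^ 2 / (η ^ 2 + 2 * t) ^ 4
        - 1320 * q ^ 2 / (η ^ 2 + 2 * t) ^ 3) / 1680) _ p :=
      ((((((hasDerivAt_const p (2050 : ℝ)).div (hl.pow 3) (pow_ne_zero 3 hR)).add
        ((hasDerivAt_const p (1413 : ℝ)).div (hl.pow 2) (pow_ne_zero 2 hR))).add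
        ((hasDerivAt_const p (714 : ℝ)).div hl hR)).sub
        ((hasDerivAt_const p (2040 * q ^ 2)).div (hl.pow 4) (pow_ne_zero 4 hR))).sub
        ((hasDerivAt_const p (1320 * q ^ 2)).div (hl.pow 3) (pow_ne_zero 3 hR))).div_const 1680
    refine (hf.congr_deriv ?_).congr_of_eventuallyEq ?_
    · simp only [Pi.pow_apply]
      push_cast
      field_simp
      ring
    · filter_upwards [lt_mem_nhds (show -(η ^ 2 / 4) < p by linarith)] with t ht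
      simp only [weight, rho2_of_gt hη ht.le]
  · have h1 : HasDerivAt (fun t => weight η (p, t)) (Dir.wb (weight η) (p, q)) q :=
      hd.comp_hasDerivAt_of_eq q ((hasDerivAt_const q p).prodMk (hasDerivAt_id q)) rfl
    refine h1.unique ?_
    simp only [weight, rho2_of_gt hη (by linarith : -(η ^ 2 / 4) ≤ p)]
    have hf : HasDerivAt (fun t : ℝ => (2050 / (η ^ 2 + 2 * p) ^ 3 + 1413 / (η ^ 2 + 2 * p) ^ 2
        + 714 / (η ^ 2 + 2 * p) - 2040 * t ^ 2 / (η ^ 2 + 2 * p) ^ 4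
        - 1320 * t ^ 2 / (η ^ 2 + 2 * p) ^ 3) / 1680) _ q :=
      ((((((hasDerivAt_pow 2 q).const_mul 2040).div_const ((η ^ 2 + 2 * p) ^ 4)).const_sub
        (2050 / (η ^ 2 + 2 * p) ^ 3 + 1413 / (η ^ 2 + 2 * p) ^ 2 + 714 / (η ^ 2 + 2 * p))).sub
        (((hasDerivAt_pow 2 q).const_mul 1320).div_const ((η ^ 2 + 2 * p) ^ 3))).div_const 1680)
    refine hf.congr_deriv ?_
    push_cast
    ring

/-- The regularised bracket at `q = r ^ 2 / ρ ^ 2` is at least its value at `q = 1`, up to `1 - q`.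
The left side is `ρ ^ 6` times the row integrand; the loss is at most the multiple `|c| * max d 0`. -/
theorem regular_bracket {ρ c d q sq : ℝ} (hρ : 0 < ρ) (hc : |c| ≤ 1) (hd : |d| ≤ 1)
    (hq0 : 0 ≤ q) (hq1 : q ≤ 1) (hsq : sq = Real.sqrt q) :
    wA c * (3 + 6 * d ^ 2) + wB c * (5 + 4 * d ^ 2) * ρ ^ 2 + 714 * ρ ^ 4 * (7 + 2 * d ^ 2)
        - 9 * ρ * max d 0 * (wA c + wB c * ρ ^ 2 + 714 * ρ ^ 4)
        - (if 1 / 2 ≤ ρ then 9 * (1 - q) * (2040 + 1320 * ρ ^ 2) * ρ * (|c| * max d 0) else 0) ≤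
      9 * (2050 - 2040 * c ^ 2 * q + (1413 - 1320 * c ^ 2 * q) * ρ ^ 2 + 714 * ρ ^ 4)
        + (1 - d ^ 2) * (q * (-12300 + 16320 * c ^ 2 * q + (-5652 + 7920 * c ^ 2 * q) * ρ ^ 2
          - 1428 * ρ ^ 4) - c ^ 2 * q * (4080 + 2640 * ρ ^ 2))
        - 9 * ρ * max d 0 * sq *
          (2050 - 2040 * c ^ 2 * q + (1413 - 1320 * c ^ 2 * q) * ρ ^ 2 + 714 * ρ ^ 4) := by
  have hc2 : c ^ 2 ≤ 1 := by rw [← sq_abs]; exact pow_le_one₀ (abs_nonneg c) hc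
  have hd2 : d ^ 2 ≤ 1 := by rw [← sq_abs]; exact pow_le_one₀ (abs_nonneg d) hd
  have hx : 0 ≤ 1 - q := sub_nonneg.2 hq1
  have hsq1 : sq ≤ 1 := hsq ▸ Real.sqrt_le_one.2 hq1
  obtain ⟨e, he⟩ : ∃ e, e = max d 0 := ⟨_, rfl⟩
  have he0 : 0 ≤ e := he ▸ le_max_right _ _
  rw [← he]
  obtain ⟨W, hW⟩ : ∃ W,
      W = 2050 - 2040 * c ^ 2 * q + (1413 - 1320 * c ^ 2 * q) * ρ ^ 2 + 714 * ρ ^ 4 := ⟨_, rfl⟩
  obtain ⟨X, hX⟩ : ∃ X, X = 9 * W
        + (1 - d ^ 2) * (q * (-12300 + 16320 * c ^ 2 * q + (-5652 + 7920 * c ^ 2 * q) * ρ ^ 2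
          - 1428 * ρ ^ 4) - c ^ 2 * q * (4080 + 2640 * ρ ^ 2))
        - (wA c * (3 + 6 * d ^ 2) + wB c * (5 + 4 * d ^ 2) * ρ ^ 2
          + 714 * ρ ^ 4 * (7 + 2 * d ^ 2)) := ⟨_, rfl⟩
  obtain ⟨Y, hY⟩ : ∃ Y, Y = c ^ 2 * (18360 + 11880 * ρ ^ 2) + (1 - d ^ 2) *
      (12300 + 5652 * ρ ^ 2 + 1428 * ρ ^ 4 - c ^ 2 * (28560 + 13200 * ρ ^ 2)) := ⟨_, rfl⟩
  have h1 : (1 - q) * Y ≤ X := by
    have := mul_nonneg (mul_nonneg hx (sub_nonneg.2 hd2))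
      (show 0 ≤ c ^ 2 * (16320 + 7920 * ρ ^ 2) * (1 - q) by positivity)
    rw [hX, hY, hW]
    unfold wA wB
    linear_combination this
  have hl : 9 / 2 * |d| * (c ^ 2 * (2040 + 1320 * ρ ^ 2)) ≤ Y := by
    rw [hY, ← sq_abs d]
    have hd0 := abs_nonneg d
    have hdd : |d| ^ 2 ≤ 1 := pow_le_one₀ hd0 hd
    have f1 : 0 ≤ c ^ 2 * 18360 * (1 - |d| / 2) + (1 - |d| ^ 2) * (12300 - 28560 * c ^ 2) := by
      nlinarith [mul_nonneg (sq_nonneg c) (sq_nonneg (|d| - 153 / 542)),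
        mul_nonneg (sub_nonneg.2 hc2) (sub_nonneg.2 hdd), sq_nonneg c]
    have f2 : 0 ≤ c ^ 2 * 11880 * (1 - |d| / 2) + (1 - |d| ^ 2) * (5652 - 13200 * c ^ 2) := by
      nlinarith [mul_nonneg (sq_nonneg c) (sq_nonneg (|d| - 495 / 1258)),
        mul_nonneg (sub_nonneg.2 hc2) (sub_nonneg.2 hdd), sq_nonneg c]
    have := mul_nonneg (sq_nonneg ρ) f2
    have := mul_nonneg (sub_nonneg.2 hdd) (show 0 ≤ 1428 * ρ ^ 4 by positivity)
    linarith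
  have hY0 : 0 ≤ Y := le_trans (by positivity) hl
  have hW0 : 0 ≤ W := by
    have : c ^ 2 * q ≤ 1 := mul_le_one₀ hc2 hq0 hq1
    have := mul_le_mul_of_nonneg_right this (sq_nonneg ρ)
    rw [hW]
    linarith [sq_nonneg ρ, show 0 ≤ ρ ^ 4 by positivity]
  have a1 : 9 * ρ * e * sq * W ≤ 9 * ρ * e * W :=
    mul_le_mul_of_nonneg_right (mul_le_of_le_one_right (by positivity) hsq1) hW0
  rw [← hW]
  split_ifs with hρ1
  · have hcc : c ^ 2 ≤ |c| := by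
      rw [← sq_abs, pow_two]
      exact mul_le_of_le_one_left (abs_nonneg c) hc
    have h4 := mul_le_mul_of_nonneg_left hcc
      (show 0 ≤ 9 * (1 - q) * (2040 + 1320 * ρ ^ 2) * ρ * e by positivity)
    have := mul_nonneg hx hY0
    unfold wA wB at hX ⊢
    rw [hW] at a1 hX ⊢
    linarith
  · have hel : e ≤ |d| := he ▸ max_le (le_abs_self d) (abs_nonneg d)
    have h5 : 9 * ρ * e * (c ^ 2 * (2040 + 1320 * ρ ^ 2)) ≤ Y :=
      le_trans (mul_le_mul_of_nonneg_right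
        (mul_le_mul (by linarith) hel he0 (by norm_num)) (by positivity)) hl
    have h4 := mul_le_mul_of_nonneg_left h5 hx
    unfold wA wB at hX ⊢
    rw [hW] at a1 hX ⊢
    linarith

/-- The loss of the regularisation. -/
def loss (η ρ c d : ℝ) : ℝ :=
  if 1 / 2 ≤ ρ then 9 * η ^ 2 * (2040 + 1320 * ρ ^ 2) / ρ ^ 7 * (|c| * max d 0) else 0

/-- The row integrand at `r = x ρ`, times `ρ ^ 6`. -/
theorem kern_eval {η ρ x c d : ℝ} (hη : 0 < η) (hρ : 0 < ρ) (hx : 0 ≤ x)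
    (hR : η ^ 2 + (x * ρ) ^ 2 = ρ ^ 2) :
    1680 * Dir.kern 10 (((10 : ℕ) : ℝ) - 1) (weight η) ((x * ρ) ^ 2 / 2) (x * ρ * c) d * ρ ^ 6 =
      9 * (2050 - 2040 * c ^ 2 * x ^ 2 + (1413 - 1320 * c ^ 2 * x ^ 2) * ρ ^ 2 + 714 * ρ ^ 4)
        + (1 - d ^ 2) * (x ^ 2 * (-12300 + 16320 * c ^ 2 * x ^ 2
          + (-5652 + 7920 * c ^ 2 * x ^ 2) * ρ ^ 2 - 1428 * ρ ^ 4)
          - c ^ 2 * x ^ 2 * (4080 + 2640 * ρ ^ 2))
        - (4080 + 2640 * ρ ^ 2) * (|c| * |d|) *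
          (x ^ 2 * (Real.sqrt (1 - d ^ 2) * Real.sqrt (1 - c ^ 2)))
        - 9 * ρ * max d 0 * x *
          (2050 - 2040 * c ^ 2 * x ^ 2 + (1413 - 1320 * c ^ 2 * x ^ 2) * ρ ^ 2 + 714 * ρ ^ 4) := by
  obtain ⟨r, hr⟩ : ∃ r, r = x * ρ := ⟨_, rfl⟩
  have hr0 : 0 ≤ r := by rw [hr]; positivity
  have hR' : η ^ 2 + 2 * (r ^ 2 / 2) = ρ ^ 2 := by rw [hr]; linarith
  rw [← hr]
  obtain ⟨wA', hwA⟩ := fderiv_weight hη.ne' (show 0 ≤ r ^ 2 / 2 by positivity) (r * c)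
  rw [hR'] at wA' hwA
  have hw : weight η (r ^ 2 / 2, r * c) =
      (2050 / (ρ ^ 2) ^ 3 + 1413 / (ρ ^ 2) ^ 2 + 714 / ρ ^ 2 - 2040 * (r * c) ^ 2 / (ρ ^ 2) ^ 4
        - 1320 * (r * c) ^ 2 / (ρ ^ 2) ^ 3) / 1680 := by
    simp only [weight, rho2_of_gt hη.ne' (show -(η ^ 2 / 4) ≤ r ^ 2 / 2 by nlinarith), hR']
  have e2 : Real.sqrt (2 * (r ^ 2 / 2) - (r * c) ^ 2) = r * Real.sqrt (1 - c ^ 2) := by
    rw [show 2 * (r ^ 2 / 2) - (r * c) ^ 2 = r ^ 2 * (1 - c ^ 2) by ring,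
      Real.sqrt_mul (sq_nonneg r), Real.sqrt_sq hr0]
  have e3 : Real.sqrt (2 * (r ^ 2 / 2)) = r := by
    rw [show 2 * (r ^ 2 / 2) = r ^ 2 by ring, Real.sqrt_sq hr0]
  have e4 : |Dir.wb (weight η) (r ^ 2 / 2, r * c)| =
      r * |c| * (4080 / (ρ ^ 2) ^ 4 + 2640 / (ρ ^ 2) ^ 3) / 1680 := by
    rw [hwA, show (-4080 * (r * c) / (ρ ^ 2) ^ 4 - 2640 * (r * c) / (ρ ^ 2) ^ 3) / 1680 =
      -(r * c * (4080 / (ρ ^ 2) ^ 4 + 2640 / (ρ ^ 2) ^ 3) / 1680) by ring, abs_neg, abs_div,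
      abs_mul, abs_mul, abs_of_nonneg hr0, abs_of_pos (show (0 : ℝ) < 1680 by norm_num),
      abs_of_pos (show (0 : ℝ) < 4080 / (ρ ^ 2) ^ 4 + 2640 / (ρ ^ 2) ^ 3 by positivity)]
  simp only [Dir.kern, wA', hw, e2, e3, e4]
  rw [hwA, hr]
  push_cast
  field_simp
  ring

/-- The row integrand is at least the flat one at the regularised distance. -/
theorem kern_ge {η r c d : ℝ} (hη : 0 < η) (hr : 0 ≤ r) (hc : |c| ≤ 1) (hd : |d| ≤ 1) :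
    psi (Real.sqrt (r ^ 2 + η ^ 2)) |c| |d| - 1680 - loss η (Real.sqrt (r ^ 2 + η ^ 2)) c d ≤
      1680 * Dir.kern 10 (((10 : ℕ) : ℝ) - 1) (weight η) (r ^ 2 / 2) (r * c) d := by
  obtain ⟨ρ, hρ⟩ : ∃ ρ, ρ = Real.sqrt (r ^ 2 + η ^ 2) := ⟨_, rfl⟩
  have hρ0 : 0 < ρ := hρ ▸ Real.sqrt_pos.2 (by positivity)
  have hρ2 : ρ ^ 2 = r ^ 2 + η ^ 2 := hρ ▸ Real.sq_sqrt (by positivity)
  rw [← hρ]
  have hrρ : r ≤ ρ := hρ ▸ Real.le_sqrt_of_sq_le (by nlinarith)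
  obtain ⟨x, hx⟩ : ∃ x, x = r / ρ := ⟨_, rfl⟩
  have hrx : r = x * ρ := by rw [hx, div_mul_cancel₀ _ hρ0.ne']
  have hx0 : 0 ≤ x := hx ▸ div_nonneg hr hρ0.le
  have hx1 : x ≤ 1 := hx ▸ (div_le_one hρ0).2 hrρ
  have ev := kern_eval (c := c) (d := d) hη hρ0 hx0 (by rw [← hrx]; linarith)
  rw [← hrx] at ev
  have key := regular_bracket hρ0 hc hd (sq_nonneg x) (pow_le_one₀ hx0 hx1)
    (Real.sqrt_sq hx0).symm
  obtain ⟨_, hg⟩ := cross_spec (abs_nonneg c) hc (abs_nonneg d) hd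
  rw [sq_abs, sq_abs, Real.sqrt_mul
    (by rw [sub_nonneg, ← sq_abs]; exact pow_le_one₀ (abs_nonneg c) hc)] at hg
  have hg' : x ^ 2 * (Real.sqrt (1 - d ^ 2) * Real.sqrt (1 - c ^ 2)) ≤ cross |c| |d| := by
    refine le_trans (mul_le_of_le_one_left (by positivity) (pow_le_one₀ hx0 hx1)) ?_
    rw [mul_comm]
    exact hg
  have hcross := mul_le_mul_of_nonneg_left hg'
    (show 0 ≤ (4080 + 2640 * ρ ^ 2) * (|c| * |d|) by positivity)
  have hloss : (if 1 / 2 ≤ ρ then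
      9 * (1 - x ^ 2) * (2040 + 1320 * ρ ^ 2) * ρ * (|c| * max d 0) else 0) =
      loss η ρ c d * ρ ^ 6 := by
    unfold loss
    split_ifs
    · have : η ^ 2 = (1 - x ^ 2) * ρ ^ 2 := by rw [hrx] at hρ2; linarith
      rw [this]
      field_simp
    · simp
  have hW : 0 ≤ wA c + wB c * ρ ^ 2 + 714 * ρ ^ 4 := by
    have hc2 : c ^ 2 ≤ 1 := by rw [← sq_abs]; exact pow_le_one₀ (abs_nonneg c) hc
    have : 0 ≤ wB c := by unfold wB; linarith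
    have : 0 ≤ wA c := by unfold wA; linarith
    positivity
  have hlin : 9 * ρ * max d 0 * (wA c + wB c * ρ ^ 2 + 714 * ρ ^ 4) ≤
      9 * ρ * |d| * (wA c + wB c * ρ ^ 2 + 714 * ρ ^ 4) :=
    mul_le_mul_of_nonneg_right (mul_le_mul_of_nonneg_left (max_le (le_abs_self d) (abs_nonneg d))
      (by positivity)) hW
  have e5 : (psi ρ |c| |d| - 1680) * ρ ^ 6 =
      wA c * (3 + 6 * d ^ 2) + wB c * (5 + 4 * d ^ 2) * ρ ^ 2 + 714 * ρ ^ 4 * (7 + 2 * d ^ 2)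
        - 9 * ρ * |d| * (wA c + wB c * ρ ^ 2 + 714 * ρ ^ 4)
        - (4080 + 2640 * ρ ^ 2) * (|c| * |d|) * cross |c| |d| := by
    unfold psi one wA wB
    rw [sq_abs, sq_abs]
    field_simp
    ring
  rw [hloss] at key
  refine le_of_mul_le_mul_right ?_ (pow_pos hρ0 6)
  rw [sub_mul, e5, ev]
  linarith

theorem loss_le {η ρ c d : ℝ} (hη : 0 < η) (hη1 : η ≤ 1) (hρ : 0 < ρ) :
    loss η ρ c d ≤ 2730240 * η * (|c| * |d|) := by
  unfold loss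
  have hm : max d 0 ≤ |d| := max_le (le_abs_self d) (abs_nonneg d)
  split_ifs with h
  · have h5 : (1 / 2 : ℝ) ^ 5 ≤ ρ ^ 5 := pow_le_pow_left₀ (by norm_num) h 5
    have h7 : (1 / 2 : ℝ) ^ 7 ≤ ρ ^ 7 := pow_le_pow_left₀ (by norm_num) h 7
    have h2 : 9 * η ^ 2 * (2040 + 1320 * ρ ^ 2) / ρ ^ 7 ≤ 2730240 * η := by
      rw [div_le_iff₀ (pow_pos hρ 7)]
      have a0 := mul_le_mul_of_nonneg_left h7 (show 0 ≤ 2350080 * η by positivity)
      have a1 := mul_le_mul_of_nonneg_left h5 (show 0 ≤ 380160 * η * ρ ^ 2 by positivity)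
      have a2 := mul_le_mul_of_nonneg_left hη1
        (show 0 ≤ η * (18360 + 11880 * ρ ^ 2) by positivity)
      linarith
    exact mul_le_mul h2 (mul_le_mul_of_nonneg_left hm (abs_nonneg c))
      (by positivity) (by positivity)
  · positivity

/-- The symmetrised integrand is at least the flat one at the regularised distance. -/
theorem sym_ge {η r c d : ℝ} (hη : 0 < η) (hη1 : η ≤ 1) (hr : 0 ≤ r) (hc : |c| ≤ 1)
    (hd : |d| ≤ 1) :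
    psi (Real.sqrt (r ^ 2 + η ^ 2)) |c| |d| + psi (Real.sqrt (r ^ 2 + η ^ 2)) |d| |c|
        - 5460480 * η * (|c| * |d|) ≤ 1680 * Gen.sym 10 (weight η) r c d := by
  have hρ : 0 < Real.sqrt (r ^ 2 + η ^ 2) := Real.sqrt_pos.2 (by positivity)
  have h1 := kern_ge hη hr hc hd
  have h2 := kern_ge hη hr hd hc
  have h3 := loss_le (c := c) (d := d) hη hη1 hρ
  have h4 := loss_le (c := d) (d := c) hη hη1 hρ
  rw [Gen.sym]
  linarith

/-- The two clauses of the certificate, for a small parameter. -/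
theorem weight_at {η ε T : ℝ} (hη0 : 0 < η) (hη1 : η ≤ 1) (hT : 0 < T)
    (hηC : η * (5460480 * T ^ 9 + 5460480 + 590400) ≤ 1680 * ε) :
    (∀ r c d, r ∈ Icc 0 T → c ∈ Icc (-1 : ℝ) 1 → d ∈ Icc (-1 : ℝ) 1 →
        -ε ≤ Gen.sym 10 (weight η) r c d) ∧
      ∀ r c d, r ∈ Ioc 0 T → c ∈ Ioc (0 : ℝ) 1 → d ∈ Ioc (0 : ℝ) 1 →
        aCoef c / 1680 * d + aCoef d / 1680 * c + 2 * (615 / 14) * c * d * r - ε * (c * d) ≤
          r ^ (10 - 1) * Gen.sym 10 (weight η) r c d := by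
  have hT9 : 0 ≤ T ^ 9 := by positivity
  refine ⟨?_, ?_⟩
  · intro r c d hr hc hd
    have hc1 : |c| ≤ 1 := abs_le.2 ⟨hc.1, hc.2⟩
    have hd1 : |d| ≤ 1 := abs_le.2 ⟨hd.1, hd.2⟩
    obtain ⟨ρ, hρ⟩ : ∃ ρ, ρ = Real.sqrt (r ^ 2 + η ^ 2) := ⟨_, rfl⟩
    have hρ0 : 0 < ρ := hρ ▸ Real.sqrt_pos.2 (by positivity)
    have h := sym_ge hη0 hη1 hr.1 hc1 hd1
    rw [← hρ] at h
    have h0 : 0 ≤ psi ρ |c| |d| + psi ρ |d| |c| := by
      refine nonneg_of_mul_nonneg_right (a := ρ ^ 6) ?_ (by positivity)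
      rw [psi_sum hρ0.ne']
      exact one_nonneg ρ (abs_nonneg c) hc1 (abs_nonneg d) hd1
    have h1 : |c| * |d| ≤ 1 := mul_le_one₀ hc1 (abs_nonneg d) hd1
    have h2 := mul_le_mul_of_nonneg_left h1 (show 0 ≤ 5460480 * η by positivity)
    have h3 := mul_nonneg hη0.le hT9
    linarith
  · intro r c d hr hc hd
    obtain ⟨ρ, hρ⟩ : ∃ ρ, ρ = Real.sqrt (r ^ 2 + η ^ 2) := ⟨_, rfl⟩
    have hρ0 : 0 < ρ := hρ ▸ Real.sqrt_pos.2 (by positivity)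
    have hr0 : 0 ≤ r := hr.1.le
    have hrρ : r ≤ ρ := hρ ▸ Real.le_sqrt_of_sq_le (by nlinarith [sq_nonneg η])
    have hηρ : η ≤ ρ := hρ ▸ Real.le_sqrt_of_sq_le (by nlinarith)
    have hρ2 : ρ ^ 2 = r ^ 2 + η ^ 2 := hρ ▸ Real.sq_sqrt (by positivity)
    have h := sym_ge hη0 hη1 hr0 (abs_le.2 ⟨by linarith [hc.1], hc.2⟩)
      (abs_le.2 ⟨by linarith [hd.1], hd.2⟩)
    rw [← hρ, abs_of_pos hc.1, abs_of_pos hd.1] at h
    have hl := line_regular hr0 hrρ hρ0 hc.1.le hc.2 hd.1.le hd.2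
    obtain ⟨x, hx⟩ : ∃ x, x = r / ρ := ⟨_, rfl⟩
    have hx0 : 0 ≤ x := hx ▸ div_nonneg hr0 hρ0.le
    have hx1 : x ≤ 1 := hx ▸ (div_le_one hρ0).2 hrρ
    rw [← hx] at hl
    have e : (1 - x ^ 2) * ρ ^ 2 = η ^ 2 := by rw [hx]; field_simp; linarith
    have hd3 : r * (1 - x ^ 8) ≤ 4 * η := by
      have h8 : 1 - x ^ 8 ≤ 4 * (1 - x ^ 2) := by
        have hx2 : x ^ 2 ≤ 1 := pow_le_one₀ hx0 hx1
        have h := sub_nonneg.2 hx2
        have := mul_nonneg h h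
        have := mul_nonneg this (show 0 ≤ (x ^ 2) ^ 2 + 2 * x ^ 2 + 3 by positivity)
        linarith
      refine (mul_le_mul_of_nonneg_left h8 hr0).trans ?_
      refine le_of_mul_le_mul_right ?_ (pow_pos hρ0 2)
      calc r * (4 * (1 - x ^ 2)) * ρ ^ 2 = 4 * (r * η) * η := by linear_combination 4 * r * e
        _ ≤ 4 * (ρ * ρ) * η := mul_le_mul_of_nonneg_right (mul_le_mul_of_nonneg_left
            (mul_le_mul hrρ hηρ hη0.le hρ0.le) (by norm_num)) hη0.le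
        _ = _ := by ring
    obtain ⟨S, hS⟩ : ∃ S, S = Gen.sym 10 (weight η) r c d := ⟨_, rfl⟩
    rw [← hS] at h ⊢
    have h9 := mul_le_mul_of_nonneg_left h (pow_nonneg hr0 9)
    have hcd : 0 ≤ c * d := mul_nonneg hc.1.le hd.1.le
    have hrT := mul_le_mul_of_nonneg_right (pow_le_pow_left₀ hr0 hr.2 9)
      (show 0 ≤ 5460480 * η * (c * d) by positivity)
    have hd4 := mul_le_mul_of_nonneg_left hd3 (show 0 ≤ 147600 * (c * d) by positivity)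
    have hC' := mul_le_mul_of_nonneg_right hηC hcd
    have h0 : 0 ≤ η * (c * d) := mul_nonneg hη0.le hcd
    show _ ≤ r ^ 9 * S
    linarith

/-- The two clauses of the certificate for the weight. -/
theorem weight_cert {ε T : ℝ} (hε : 0 < ε) (hT : 0 < T) :
    ∃ w : ℝ × ℝ → ℝ, ContDiff ℝ 1 w ∧ (∀ p q, 0 ≤ p → q ^ 2 ≤ 2 * p → 0 < w (p, q)) ∧
      (∀ r c d, r ∈ Icc 0 T → c ∈ Icc (-1 : ℝ) 1 → d ∈ Icc (-1 : ℝ) 1 →
        -ε ≤ Gen.sym 10 w r c d) ∧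
      ∀ r c d, r ∈ Ioc 0 T → c ∈ Ioc (0 : ℝ) 1 → d ∈ Ioc (0 : ℝ) 1 →
        aCoef c / 1680 * d + aCoef d / 1680 * c + 2 * (615 / 14) * c * d * r - ε * (c * d) ≤
          r ^ (10 - 1) * Gen.sym 10 w r c d := by
  obtain ⟨C, hC⟩ : ∃ C, C = 5460480 * T ^ 9 + 5460480 + 590400 := ⟨_, rfl⟩
  have hC0 : 0 < C := by rw [hC]; positivity
  have hη0 : 0 < min 1 (1680 * ε / C) := lt_min one_pos (by positivity)
  obtain ⟨h1, h2⟩ := weight_at (ε := ε) hη0 (min_le_left _ _) hT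
    (hC ▸ (le_div_iff₀ hC0).1 (min_le_right _ _))
  exact ⟨_, contDiff_weight hη0.ne', fun p q hp hq => weight_pos hη0.ne' hp hq, h1, h2⟩

end Vale.Agent.P219.CH.Ten
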